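import Vale.Agent.P076.H18.Osc
set_option linter.all false

/-!
Time-shifted blocks: uniformly small initial values on the whole space.
-/

open MeasureTheory Complex Filter Topology

namespace Vale.Agent.P076

section unit
variable {m K : ℕ}

/-- uniform bound for the unit block at negative times -/
lemma neg_unit (hK : 1 ≤ K) (X : E (m + 1)) {S : ℝ} (hS : 0 < S) :
    ‖evo (bG m K) X (-S) 0‖ ≤ 12 / (bw m K * √S) := by
  have hw := bw_pos (m := m) hK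
  have hM := bM_pos (m := m)
  have hV := bV_pos (m := m) hK
  have hK0 : (0:ℝ) < K := by exact_mod_cast hK
  have hs : 0 < √S := Real.sqrt_pos.2 hS
  unfold bG box
  rw [evo_box _ measurableSet_bS, norm_mul, norm_prod, Fin.prod_univ_succ]
  have h0 : ‖∫ v in bS m K 0, cexp (oscE (X 0) (-S) (0 : ℝ) v)‖ ≤ 6 / √S := by
    have : ∫ v in bS m K 0, cexp (oscE (X 0) (-S) 0 v)
        = ∫ v in Set.Ico (bR m K / 2) (bR m K / 2 + bw m K), cexp (oscE (X 0) (-S) 0 v) := rfl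
    rw [this]
    exact osc_second_neg _ (by linarith only [hw]) hS
  have h1 : ∀ i : Fin m, ‖∫ v in bS m K i.succ, cexp (oscE (X i.succ) (-S) (0 : ℝ) v)‖ ≤ K / bM m := by
    intro i
    have hv : volume (bS m K i.succ) = ENNReal.ofReal (K / bM m) := by
      simp only [bS, Fin.cons_succ]; exact volume_bA hK i
    have := norm_int_oscE_le (A := bS m K i.succ) (by rw [hv]; simp) (X i.succ) (-S) 0 le_rfl
    rw [hv, ENNReal.toReal_ofReal (by positivity)] at this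
    exact this
  have h2 : ∏ i : Fin m, ‖∫ v in bS m K i.succ, cexp (oscE (X i.succ) (-S) (0 : ℝ) v)‖
      ≤ (K / bM m) ^ m := by
    calc _ ≤ ∏ i : Fin m, ((K : ℝ) / bM m) :=
          Finset.prod_le_prod (fun _ _ => norm_nonneg _) (fun i _ => h1 i)
      _ = _ := by rw [Finset.prod_const, Finset.card_univ, Fintype.card_fin]
  rw [Complex.norm_real, Real.norm_of_nonneg (by positivity)]
  calc 2 / bV m K * (‖∫ v in bS m K 0, cexp (oscE (X 0) (-S) (0 : ℝ) v)‖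
        * ∏ i : Fin m, ‖∫ v in bS m K i.succ, cexp (oscE (X i.succ) (-S) (0 : ℝ) v)‖)
      ≤ 2 / bV m K * (6 / √S * (K / bM m) ^ m) := by (clear * - h0 h2 hs hV; gcongr)
    _ = 12 / (bw m K * √S) := by
        unfold bV
        have hq : 0 < ((K : ℝ) / bM m) ^ m := by positivity
        generalize ((K : ℝ) / bM m) ^ m = q at hq ⊢
        field_simp
        ring

/-- uniform bound for the rescaled block at negative times -/
lemma neg_fG (hK : 1 ≤ K) {c : E (m + 1)} {r q : ℝ} (hr : 0 < r) (hq : 0 < q)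
    (hRr : bR m K = r * q) (x : E (m + 1)) {σ : ℝ} (hσ : 0 < σ) :
    ‖evo (fG m K c r) x (-σ) 0‖ ≤ 12 * bM m * √(r / (q * σ)) := by
  have hw := bw_pos (m := m) hK
  have hM := bM_pos (m := m)
  unfold fG
  rw [evo_scaled _ _ hr, zero_div, neg_div]
  refine (neg_unit hK _ (by positivity)).trans (le_of_eq ?_)
  have h1 : bw m K = √(r * q) / bM m := by
    rw [eq_div_iff hM.ne', ← hRr, ← bw_sq]
    rw [show bw m K ^ 2 * (bM m : ℝ) ^ 2 = (bw m K * bM m) ^ 2 by ring,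
      Real.sqrt_sq (by positivity)]
  have h2 : √(σ / r ^ 2) = √σ / r := by
    rw [Real.sqrt_div hσ.le, Real.sqrt_sq hr.le]
  have h3 : √(r / (q * σ)) = √r / (√q * √σ) := by
    rw [Real.sqrt_div hr.le, Real.sqrt_mul hq.le]
  have h4 : √(r * q) = √r * √q := Real.sqrt_mul hr.le _
  have hr' : 0 < √r := Real.sqrt_pos.2 hr
  have hq' : 0 < √q := Real.sqrt_pos.2 hq
  have hσ' : 0 < √σ := Real.sqrt_pos.2 hσ
  have h5 : r = √r * √r := (Real.mul_self_sqrt hr.le).symm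
  rw [h1, h2, h3, h4]
  have h6 : 12 / (√r * √q / (bM m : ℝ) * (√σ / r)) = 12 * bM m * (r / √r) / (√q * √σ) := by
    field_simp
  have h7 : r / √r = √r := by
    rw [div_eq_iff hr'.ne']; exact h5
  rw [h6, h7]
  ring

end unit

/-- The block property with a uniform bound of the block at time `-σ`. -/
def BlockProperty0 (n : ℕ) (C : ℝ) : Prop :=
  ∀ (c : E n) (r B s₀ ε σ : ℝ), 0 < r → 0 < s₀ → 0 < ε → 0 < σ → ∃ k₀ : ℕ, ∀ k ≥ k₀,
    ∃ G : E n → ℂ, ∃ s₁ > 0,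
      Measurable G ∧ (∃ b : ℝ, ∀ η, ‖G η‖ ≤ b) ∧
      (∀ η, G η ≠ 0 → 2 ^ k ≤ 2 * Real.pi * ‖η‖ ∧ 2 * Real.pi * ‖η‖ < 2 ^ (k + 1)) ∧
      (∫ η, ‖G η‖ ^ 2 ≤ C * r ^ ((n : ℝ) ^ 2 / (n + 1)) * (2 : ℝ) ^ (-(2 * k * sCrit n))) ∧
      (∀ x ∈ cube c r, ∃ s, s₁ ≤ s ∧ s ≤ ε ∧ 1 ≤ ‖evo G x s 0‖) ∧
      (∀ x : E n, ‖x‖ ≤ B → ∀ s ≥ s₀, ∀ a ≥ 0, ‖evo G x s a‖ ≤ ε) ∧
      (∀ x : E n, ‖evo G x (-σ) 0‖ ≤ ε)

theorem exists_block0 (m : ℕ) : ∃ C > 0, BlockProperty0 (m + 1) C := by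
  have hρ := bρ_pos (m := m)
  have hM := bM_pos (m := m)
  refine ⟨bC m, bC_pos, ?_⟩
  intro c r B s₀ ε σ hr hs₀ hε hσ
  -- largeness of `2^k`
  have hR1 : 0 < bR m 1 := bR_pos le_rfl
  set L1 : ℝ := 2 * bR m 1 / (bρ m * r) with hL1
  set L2 : ℝ := 6 * (bρ m * r) / ε with hL2
  set L3 : ℝ := 4 * (|B| + |c 0| + bρ m * r) / s₀ with hL3
  set L4 : ℝ := 8 * (bρ m * r) / (s₀ * ε) with hL4
  set L5 : ℝ := 288 * (bM m : ℝ) ^ 2 * (bρ m * r) / (σ * ε ^ 2) with hL5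
  have hL1' : 0 ≤ L1 := by positivity
  have hL2' : 0 ≤ L2 := by positivity
  have hL3' : 0 ≤ L3 := by (clear * - hρ hr hs₀; positivity)
  have hL4' : 0 ≤ L4 := by positivity
  have hL5' : 0 ≤ L5 := by positivity
  obtain ⟨k₀, hk₀⟩ := pow_unbounded_of_one_lt (L1 + L2 + L3 + L4 + L5) (by norm_num : (1 : ℝ) < 2)
  refine ⟨k₀, fun k hk => ?_⟩
  have hLk : L1 + L2 + L3 + L4 + L5 ≤ (2 : ℝ) ^ k := hk₀.le.trans (pow_le_pow_right₀ (by norm_num) hk)
  have h2k : (0 : ℝ) < 2 ^ k := by positivity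
  have hA1 : 2 * bR m 1 ≤ (2 : ℝ) ^ k * (bρ m * r) := by
    rw [← div_le_iff₀ (by positivity)]; linarith only [hL2', hL3', hL4', hL5', hLk]
  have hA2 : 6 * (bρ m * r) ≤ (2 : ℝ) ^ k * ε := by
    rw [← div_le_iff₀ (by positivity)]; linarith only [hL1', hL3', hL4', hL5', hLk]
  have hA3 : 4 * (|B| + |c 0| + bρ m * r) ≤ (2 : ℝ) ^ k * s₀ := by
    rw [← div_le_iff₀ (by positivity)]; linarith only [hL1', hL2', hL4', hL5', hLk]
  have hA4 : 8 * (bρ m * r) ≤ (2 : ℝ) ^ k * (s₀ * ε) := by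
    rw [← div_le_iff₀ (by positivity)]; linarith only [hL1', hL2', hL3', hL5', hLk]
  have hA5 : 288 * (bM m : ℝ) ^ 2 * (bρ m * r) ≤ (2 : ℝ) ^ k * (σ * ε ^ 2) := by
    rw [← div_le_iff₀ (by positivity)]; linarith only [hL1', hL2', hL3', hL4', hLk]
  clear_value L1 L2 L3 L4 L5
  obtain ⟨κ, hκ1, hκ2⟩ := exists_scale (m := m) (r := r) (by positivity : (0 : ℝ) < 2 ^ k / 2) (by
    rw [div_le_iff₀ (by positivity)]; linarith only [hA1])
  have hK : 1 ≤ 2 ^ κ := one_le_two_pow' κ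
  have hR : 0 < bR m (2 ^ κ) := bR_pos hK
  set r' : ℝ := bR m (2 ^ κ) / (2 ^ k / 2) with hr'
  have hr'0 : 0 < r' := by (clear * - hR; positivity)
  have hRr : bR m (2 ^ κ) = r' * (2 ^ k / 2) := by rw [hr']; field_simp
  refine ⟨fG m (2 ^ κ) c r', r' ^ 2 / (2 * bR m (2 ^ κ)), by (clear * - hR; positivity),
    measurable_fG, fG_bounded hK hr'0, ?_, ?_, ?_, ?_, ?_⟩
  · intro η hη
    have := fG_support hK hr'0 (by positivity) hRr hη
    constructor
    · linarith only [this]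
    · rw [pow_succ]; linarith only [this]
  · rw [fG_cost hK hr'0, hRr]
    exact cost_bound hr hr'0 hκ2 k
  · intro x hx
    obtain ⟨s, h1, h2, h3⟩ := fG_align (m := m) hK hr'0 (c := c) (x := x) (fun i => by
      have := hx i
      exact ⟨this.1, by linarith only [hκ1, this]⟩)
    refine ⟨s, h1, h2.trans ?_, h3⟩
    calc r' ^ 2 * (3 / bR m (2 ^ κ)) = 6 * r' / 2 ^ k := by rw [hRr]; field_simp; ring
      _ ≤ 6 * (bρ m * r) / 2 ^ k := by (clear * - hκ2; gcongr)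
      _ ≤ ε := by rw [div_le_iff₀ h2k]; linarith only [hA2]
  · intro x hx s hs a ha
    have hs0 : 0 < s := lt_of_lt_of_le hs₀ hs
    refine (fG_late hK hr'0 (by positivity) hRr hs0 ha ?_).trans ?_
    · have h1 : ‖x‖ ≤ |B| := hx.trans (le_abs_self B)
      have h2 : (2 : ℝ) ^ k * s₀ ≤ 2 ^ k * s := by (clear * - hs; gcongr)
      linarith only [hA3, hκ2, h1, h2]
    · calc 4 * r' / (s * (2 ^ k / 2)) = 8 * r' / (s * 2 ^ k) := by field_simp; ring
        _ ≤ 8 * (bρ m * r) / (s₀ * 2 ^ k) := by (clear * - hρ hr hκ2 hs₀ hs; gcongr)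
        _ ≤ ε := by rw [div_le_iff₀ (by positivity)]; linarith only [hA4]
  · intro x
    refine (neg_fG hK hr'0 (by positivity : (0:ℝ) < 2 ^ k / 2) hRr x hσ).trans ?_
    have h1 : √(r' / (2 ^ k / 2 * σ)) ≤ ε / (12 * bM m) := by
      rw [Real.sqrt_le_left (by positivity), div_le_iff₀ (by positivity)]
      calc r' ≤ bρ m * r := hκ2
        _ = 288 * (bM m : ℝ) ^ 2 * (bρ m * r) / (288 * (bM m : ℝ) ^ 2) := by field_simp
        _ ≤ (2 : ℝ) ^ k * (σ * ε ^ 2) / (288 * (bM m : ℝ) ^ 2) := by (clear * - hA5 hM; gcongr)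
        _ = (ε / (12 * bM m)) ^ 2 * (2 ^ k / 2 * σ) := by field_simp; ring
    calc 12 * (bM m : ℝ) * √(r' / (2 ^ k / 2 * σ)) ≤ 12 * bM m * (ε / (12 * bM m)) := by
          (clear * - h1 hM; gcongr)
      _ = ε := by field_simp

section shift
variable {n : ℕ}

/-- time shift on the frequency side -/
noncomputable def shiftG (G : E n → ℂ) (σ : ℝ) (η : E n) : ℂ :=
  cexp (((2 * Real.pi * (σ * ‖η‖ ^ 2) : ℝ) : ℂ) * I) * G η

lemma norm_shiftG (G : E n → ℂ) (σ : ℝ) (η : E n) : ‖shiftG G σ η‖ = ‖G η‖ := by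
  unfold shiftG
  rw [norm_mul, Complex.norm_exp_ofReal_mul_I, one_mul]

lemma evo_shiftG (G : E n → ℂ) (σ : ℝ) (x : E n) (s a : ℝ) :
    evo (shiftG G σ) x s a = evo G x (s - σ) a := by
  unfold evo shiftG
  congr 1
  ext η
  rw [← mul_assoc, ← Complex.exp_add]
  congr 2
  push_cast
  ring

lemma measurable_shiftG {G : E n → ℂ} (h : Measurable G) (σ : ℝ) : Measurable (shiftG G σ) := by
  unfold shiftG
  exact (by fun_prop : Measurable fun η : E n =>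
    cexp (((2 * Real.pi * (σ * ‖η‖ ^ 2) : ℝ) : ℂ) * I)).mul h

lemma IsBlock.shift {w k : ℕ} {S T : Set (E n)} {V Γ B s₀ s₀' ε ε' s₁ σ : ℝ} {F : E n → ℂ}
    (h : IsBlock w k S T V Γ B s₀' ε' s₁ F) (hσ : 0 ≤ σ) (h1 : ε' + σ ≤ ε) (h2 : s₀' + σ ≤ s₀)
    (hinit : ∀ x, ‖evo F x (-σ) 0‖ ≤ ε) :
    IsBlock w k S Set.univ V Γ B s₀ ε (s₁ + σ) (shiftG F σ) := by
  refine ⟨measurable_shiftG h.meas σ, ?_, ?_, ?_, ?_, ?_, ?_, ?_⟩
  · obtain ⟨b, hb⟩ := h.bdd
    exact ⟨b, fun η => by rw [norm_shiftG]; exact hb η⟩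
  · intro η hη
    exact h.supp η fun h0 => hη (by unfold shiftG; rw [h0, mul_zero])
  · simp_rw [norm_shiftG]
    exact h.cost
  · have := h.pos
    positivity
  · intro x hx
    obtain ⟨s, hs1, hs2, hs3⟩ := h.good x hx
    refine ⟨s + σ, by linarith, by linarith, ?_⟩
    rw [evo_shiftG, add_sub_cancel_right]
    exact hs3
  · intro x _
    rw [evo_shiftG, zero_sub]
    exact hinit x
  · intro x hx s hs a ha
    rw [evo_shiftG]
    exact (h.tail x hx (s - σ) (by linarith) a ha).trans (by linarith)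

/-- scaled block with uniformly small initial values, any amplitude `V > 0` -/
lemma block_of_property0 {C : ℝ} (hB : BlockProperty0 n C) (c : E n) {r V B s₀ ε : ℝ}
    (hr : 0 < r) (hV0 : 0 < V) (hs₀ : 0 < s₀) (hε : 0 < ε) :
    ∃ k₀ : ℕ, ∀ k ≥ k₀, ∃ (F : E n → ℂ) (s₁ : ℝ), IsBlock 1 k (cube c r) Set.univ V
      (V ^ 2 * (C * r ^ ((n : ℝ) ^ 2 / (n + 1))) * (2 : ℝ) ^ (-(2 * k * sCrit n))) B s₀ ε s₁ F := by
  set σ : ℝ := min (s₀ / 2) (ε / 2) with hσ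
  have hσ0 : 0 < σ := by positivity
  have hσ1 : σ ≤ s₀ / 2 := min_le_left _ _
  have hσ2 : σ ≤ ε / 2 := min_le_right _ _
  obtain ⟨k₀, hk₀⟩ := hB c r B (s₀ / 2) (min (ε / 2) (ε / 2 / V)) σ hr (by positivity)
    (by positivity) hσ0
  refine ⟨k₀, fun k hk => ?_⟩
  obtain ⟨G, s₁, hs₁, hm, ⟨b, hb⟩, hsupp, hcost, hgood, htail, hinit⟩ := hk₀ k hk
  have hnorm : ∀ η, ‖(V : ℂ) * G η‖ = V * ‖G η‖ := fun η => by
    rw [norm_mul, Complex.norm_real, Real.norm_of_nonneg hV0.le]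
  have hblk : IsBlock 1 k (cube c r) ∅ V
      (V ^ 2 * (C * r ^ ((n : ℝ) ^ 2 / (n + 1))) * (2 : ℝ) ^ (-(2 * k * sCrit n))) B (s₀ / 2)
      (ε / 2) s₁ (fun η => (V : ℂ) * G η) := by
    refine ⟨hm.const_mul _, ⟨V * b, fun η => ?_⟩, fun η hη => ?_, ?_, hs₁,
      fun x hx => ?_, fun x hx => hx.elim, fun x hx s hs a ha => ?_⟩
    · rw [hnorm]
      have := hb η
      (clear * - this hV0; gcongr)
    · exact hsupp η (right_ne_zero_of_mul hη)
    · simp_rw [hnorm, mul_pow]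
      rw [integral_const_mul]
      calc V ^ 2 * ∫ η, ‖G η‖ ^ 2
          ≤ V ^ 2 * (C * r ^ ((n : ℝ) ^ 2 / (n + 1)) * (2 : ℝ) ^ (-(2 * k * sCrit n))) := by
            (clear * - hcost hV0; gcongr)
        _ = _ := by ring
    · obtain ⟨s, h1, h2, h3⟩ := hgood x hx
      refine ⟨s, h1, h2.trans (min_le_left _ _), ?_⟩
      rw [evo_const_mul, norm_mul, Complex.norm_real, Real.norm_of_nonneg hV0.le]
      linarith only [mul_le_mul_of_nonneg_left h3 hV0.le]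
    · rw [evo_const_mul, norm_mul, Complex.norm_real, Real.norm_of_nonneg hV0.le]
      have := (htail x hx s hs a ha).trans (min_le_right _ _)
      rw [le_div_iff₀ hV0] at this
      linarith only [this]
  refine ⟨shiftG (fun η => (V : ℂ) * G η) σ, s₁ + σ,
    hblk.shift hσ0.le (by linarith) (by linarith) fun x => ?_⟩
  rw [evo_const_mul, norm_mul, Complex.norm_real, Real.norm_of_nonneg hV0.le]
  have := (hinit x).trans (min_le_right _ _)
  rw [le_div_iff₀ hV0] at this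
  linarith only [this, hε]

end shift

end Vale.Agent.P076
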