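import Vale.Agent.P076.H18.Unified
set_option linter.all false

/-!
Covering lemma: cubes of side `r i ≤ 1` with `∑ (r i)^n = ∞` can be placed so that EVERY point is
in infinitely many of them.
-/

open MeasureTheory Filter Topology

namespace Vale.Agent.P076

/-- `x` lies in the dyadic cube of side `2^{-m}` with corner `2^{-m} p` -/
def inCell {n : ℕ} (m : ℕ) (p : Fin n → ℤ) (x : Fin n → ℝ) : Prop :=
  ∀ j, (p j : ℝ) ≤ 2 ^ m * x j ∧ 2 ^ m * x j < p j + 1

/-- the children of the cells in `D` -/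
noncomputable def kids {n : ℕ} (D : Finset (Fin n → ℤ)) : Finset (Fin n → ℤ) :=
  (D ×ˢ (Finset.univ : Finset (Fin n → Fin 2))).image
    (fun q : (Fin n → ℤ) × (Fin n → Fin 2) => fun j => 2 * q.1 j + ((q.2 j : ℕ) : ℤ))

lemma card_kids {n : ℕ} (D : Finset (Fin n → ℤ)) : (kids D).card ≤ D.card * 2 ^ n := by
  unfold kids
  refine Finset.card_image_le.trans (le_of_eq ?_)
  rw [Finset.card_product, Finset.card_univ]
  simp

lemma exists_kid {n : ℕ} {D : Finset (Fin n → ℤ)} {m : ℕ} {x : Fin n → ℝ} {p : Fin n → ℤ}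
    (hp : p ∈ D) (hx : inCell m p x) : ∃ p' ∈ kids D, inCell (m + 1) p' x := by
  have h : ∀ j, ∃ e : Fin 2, ((2 * p j + ((e : ℕ) : ℤ) : ℤ) : ℝ) ≤ 2 ^ (m + 1) * x j ∧
      2 ^ (m + 1) * x j < ((2 * p j + ((e : ℕ) : ℤ) : ℤ) : ℝ) + 1 := by
    intro j
    obtain ⟨h1, h2⟩ := hx j
    have h3 : (2 : ℝ) ^ (m + 1) * x j = 2 * (2 ^ m * x j) := by rw [pow_succ]; ring
    rw [h3]
    rcases lt_or_ge (2 * (2 ^ m * x j)) (2 * p j + 1) with h4 | h4
    · refine ⟨0, ?_, ?_⟩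
      · push_cast; simp; linarith
      · push_cast; simp; linarith
    · refine ⟨1, ?_, ?_⟩
      · push_cast; simp; linarith
      · push_cast; simp; linarith
  choose e he using h
  refine ⟨fun j => 2 * p j + ((e j : ℕ) : ℤ), ?_, he⟩
  unfold kids
  exact Finset.mem_image.2 ⟨(p, e), Finset.mem_product.2 ⟨hp, Finset.mem_univ _⟩, rfl⟩

/-- generation by generation placement of dyadic cubes -/
lemma place {n M : ℕ} (mm : ℕ → ℕ) : ∀ (g m₀ : ℕ), m₀ + g = M + 1 →
    ∀ (I : Finset ℕ) (D : Finset (Fin n → ℤ)), (∀ i ∈ I, m₀ ≤ mm i ∧ mm i ≤ M) →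
      D.card * 2 ^ (n * g) ≤ ∑ i ∈ I, 2 ^ (n * (M + 1 - mm i)) →
      ∃ c : ℕ → Fin n → ℝ, ∀ x : Fin n → ℝ, (∃ p ∈ D, inCell m₀ p x) →
        ∃ i ∈ I, ∀ j, c i j ≤ x j ∧ x j ≤ c i j + (1 / 2) ^ mm i := by
  classical
  intro g
  induction g with
  | zero =>
    intro m₀ hm I D hI hsum
    have hIe : I = ∅ := by
      refine Finset.eq_empty_of_forall_notMem fun i hi => ?_
      have := hI i hi
      omega
    rw [hIe, Finset.sum_empty, mul_zero, pow_zero, mul_one] at hsum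
    have hD : D = ∅ := Finset.card_eq_zero.1 (by omega)
    refine ⟨fun _ _ => 0, fun x hx => ?_⟩
    obtain ⟨p, hp, -⟩ := hx
    rw [hD] at hp
    exact absurd hp (Finset.notMem_empty p)
  | succ g ih =>
    intro m₀ hm I D hI hsum
    set J := I.filter fun i => mm i = m₀ with hJ
    set I' := I.filter fun i => ¬ mm i = m₀ with hI'
    obtain ⟨D₁, hD₁, hcard⟩ := Finset.exists_subset_card_eq (min_le_right J.card D.card)
    -- inequality for the children
    have h1 : ∑ i ∈ I, 2 ^ (n * (M + 1 - mm i))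
        = J.card * 2 ^ (n * (g + 1)) + ∑ i ∈ I', 2 ^ (n * (M + 1 - mm i)) := by
      rw [← Finset.sum_filter_add_sum_filter_not I (fun i => mm i = m₀)]
      congr 1
      rw [Finset.sum_congr rfl (g := fun _ => 2 ^ (n * (g + 1))), Finset.sum_const, smul_eq_mul]
      intro i hi
      rw [(Finset.mem_filter.1 hi).2]
      congr 2
      omega
    have h2 : (D \ D₁).card * 2 ^ (n * (g + 1)) ≤ ∑ i ∈ I', 2 ^ (n * (M + 1 - mm i)) := by
      rw [Finset.card_sdiff_of_subset hD₁, hcard]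
      rcases le_total J.card D.card with h | h
      · rw [min_eq_left h, Nat.sub_mul]
        omega
      · rw [min_eq_right h, Nat.sub_self, zero_mul]
        exact Nat.zero_le _
    have h3 : (kids (D \ D₁)).card * 2 ^ (n * g) ≤ ∑ i ∈ I', 2 ^ (n * (M + 1 - mm i)) := by
      refine le_trans ?_ h2
      calc (kids (D \ D₁)).card * 2 ^ (n * g) ≤ ((D \ D₁).card * 2 ^ n) * 2 ^ (n * g) :=
            Nat.mul_le_mul_right _ (card_kids _)
        _ = (D \ D₁).card * 2 ^ (n * (g + 1)) := by ring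
    obtain ⟨c₂, hc₂⟩ := ih (m₀ + 1) (by omega) I' (kids (D \ D₁)) (fun i hi => by
      have h4 := Finset.mem_filter.1 hi
      have h5 := hI i h4.1
      have h6 := h4.2
      omega) h3
    -- the cubes of generation `m₀`
    obtain ⟨f⟩ : Nonempty (D₁ ↪ J) := Function.Embedding.nonempty_of_card_le (by
      rw [Fintype.card_coe, Fintype.card_coe, hcard]; exact min_le_left _ _)
    have hfinj : Function.Injective (fun p : D₁ => ((f p : J) : ℕ)) := fun p q h =>
      f.injective (Subtype.ext h)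
    set c₁ : ℕ → Fin n → ℝ := Function.extend (fun p : D₁ => ((f p : J) : ℕ))
      (fun p : D₁ => fun j => (1 / 2 : ℝ) ^ m₀ * ((p : Fin n → ℤ) j : ℝ)) (fun _ _ => 0) with hc₁
    have hc₁f : ∀ p : D₁, c₁ (f p : J) = fun j => (1 / 2 : ℝ) ^ m₀ * ((p : Fin n → ℤ) j : ℝ) :=
      fun p => hfinj.extend_apply _ _ p
    refine ⟨fun i => if mm i = m₀ then c₁ i else c₂ i, fun x hx => ?_⟩
    obtain ⟨p, hp, hpx⟩ := hx
    by_cases hp1 : p ∈ D₁
    · have hmem := Finset.mem_filter.1 (f ⟨p, hp1⟩).2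
      refine ⟨(f ⟨p, hp1⟩ : J), hmem.1, fun j => ?_⟩
      simp only []
      rw [if_pos hmem.2, hc₁f ⟨p, hp1⟩, hmem.2]
      obtain ⟨h5, h6⟩ := hpx j
      have h7 : (1 / 2 : ℝ) ^ m₀ * 2 ^ m₀ = 1 := by rw [← mul_pow]; norm_num
      have h8 : (0 : ℝ) < (1 / 2) ^ m₀ := by positivity
      have h9 : x j = (1 / 2 : ℝ) ^ m₀ * (2 ^ m₀ * x j) := by rw [← mul_assoc, h7, one_mul]
      constructor
      · calc (1 / 2 : ℝ) ^ m₀ * (p j : ℝ) ≤ (1 / 2 : ℝ) ^ m₀ * (2 ^ m₀ * x j) := by gcongr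
          _ = x j := h9.symm
      · calc x j = (1 / 2 : ℝ) ^ m₀ * (2 ^ m₀ * x j) := h9
          _ ≤ (1 / 2 : ℝ) ^ m₀ * (p j + 1) := by gcongr
          _ = (1 / 2 : ℝ) ^ m₀ * (p j : ℝ) + (1 / 2) ^ m₀ := by ring
    · obtain ⟨p', hp', hpx'⟩ := exists_kid (Finset.mem_sdiff.2 ⟨hp, hp1⟩) hpx
      obtain ⟨i, hi, hij⟩ := hc₂ x ⟨p', hp', hpx'⟩
      have h4 := Finset.mem_filter.1 hi
      refine ⟨i, h4.1, fun j => ?_⟩
      simp only []
      rw [if_neg h4.2]
      exact hij j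

variable {n : ℕ}

/-- one stage: a box is covered by finitely many consecutive cubes -/
lemma exists_stage_all (r : ℕ → ℝ) (hr0 : ∀ i, 0 < r i) (hr1 : ∀ i, r i ≤ 1)
    (hsum : ¬ Summable fun i => r i ^ n) (N i₀ : ℕ) :
    ∃ i₁ > i₀, ∃ c : ℕ → E n, ∀ x ∈ hbox n N, ∃ i, i₀ ≤ i ∧ i < i₁ ∧ x ∈ cube (c i) (r i) := by
  have hm : ∀ i, ∃ k : ℕ, (1 / 2 : ℝ) ^ (k + 1) < r i ∧ r i ≤ (1 / 2) ^ k := fun i =>
    exists_nat_pow_near_of_lt_one (hr0 i) (hr1 i) (by norm_num) (by norm_num)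
  choose k hk1 hk2 using hm
  set mm : ℕ → ℕ := fun i => k i + 1 with hmm
  have hle : ∀ i, r i ≤ 2 * (1 / 2) ^ mm i := fun i => by
    refine (hk2 i).trans (le_of_eq ?_)
    simp only [hmm, pow_succ]
    ring
  have hns : ¬ Summable fun i => ((1 / 2 : ℝ) ^ mm i) ^ n := by
    intro h
    apply hsum
    refine Summable.of_nonneg_of_le (fun i => pow_nonneg (hr0 i).le n) (fun i => ?_)
      (h.mul_left (2 ^ n))
    rw [← mul_pow]
    exact pow_le_pow_left₀ (hr0 i).le (hle i) n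
  have hdiv : Tendsto (fun J => ∑ j ∈ Finset.range J, ((1 / 2 : ℝ) ^ mm (i₀ + j)) ^ n) atTop atTop := by
    have h1 : ¬ Summable fun j => ((1 / 2 : ℝ) ^ mm (i₀ + j)) ^ n := by
      have := (summable_nat_add_iff (f := fun i => ((1 / 2 : ℝ) ^ mm i) ^ n) i₀).not.2 hns
      simpa only [add_comm] using this
    exact (not_summable_iff_tendsto_nat_atTop_of_nonneg fun j => by positivity).1 h1
  classical
  set D : Finset (Fin n → ℤ) := Fintype.piFinset fun _ => Finset.Ico (-(N : ℤ)) N with hD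
  obtain ⟨J, hJ1, hJ⟩ := ((eventually_ge_atTop 1).and
    (hdiv.eventually (eventually_ge_atTop (D.card : ℝ)))).exists
  set I : Finset ℕ := Finset.Ico i₀ (i₀ + J) with hI
  have hsumI : (D.card : ℝ) ≤ ∑ i ∈ I, ((1 / 2 : ℝ) ^ mm i) ^ n := by
    rw [hI, Finset.sum_Ico_eq_sum_range, Nat.add_sub_cancel_left]
    exact hJ
  set M : ℕ := I.sup mm with hM
  have hMle : ∀ i ∈ I, mm i ≤ M := fun i hi => Finset.le_sup (f := mm) hi
  have hnat : D.card * 2 ^ (n * (M + 1)) ≤ ∑ i ∈ I, 2 ^ (n * (M + 1 - mm i)) := by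
    have h2 : ((D.card * 2 ^ (n * (M + 1)) : ℕ) : ℝ) ≤ ((∑ i ∈ I, 2 ^ (n * (M + 1 - mm i)) : ℕ) : ℝ) := by
      push_cast
      calc (D.card : ℝ) * 2 ^ (n * (M + 1)) ≤ (∑ i ∈ I, ((1 / 2 : ℝ) ^ mm i) ^ n) * 2 ^ (n * (M + 1)) := by
            gcongr
        _ = ∑ i ∈ I, (2 : ℝ) ^ (n * (M + 1 - mm i)) := by
            rw [Finset.sum_mul]
            refine Finset.sum_congr rfl fun i hi => ?_
            have h3 := hMle i hi
            have h4 : n * (M + 1) = n * mm i + n * (M + 1 - mm i) := by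
              rw [← Nat.mul_add]; congr 1; omega
            rw [h4, pow_add (2 : ℝ), ← mul_assoc, ← pow_mul, mul_comm (mm i) n]
            have h5 : (1 / 2 : ℝ) ^ (n * mm i) * 2 ^ (n * mm i) = 1 := by
              rw [← mul_pow]; norm_num
            rw [h5, one_mul]
    exact_mod_cast h2
  obtain ⟨c, hc⟩ := place (n := n) (M := M) mm (M + 1) 0 (by omega) I D
    (fun i hi => ⟨Nat.zero_le _, hMle i hi⟩) hnat
  refine ⟨i₀ + J, by omega, fun i => WithLp.toLp 2 (c i), fun x hx => ?_⟩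
  obtain ⟨i, hi, hij⟩ := hc (fun j => x j) ⟨fun j => ⌊x j⌋, by
    rw [hD, Fintype.mem_piFinset]
    intro j
    rw [Finset.mem_Ico]
    have := hx j
    rw [Set.mem_Ico] at this
    constructor
    · rw [Int.le_floor]; push_cast; exact this.1
    · rw [Int.floor_lt]; push_cast; exact this.2, fun j => by
    rw [pow_zero, one_mul]
    exact ⟨Int.floor_le _, Int.lt_floor_add_one _⟩⟩
  rw [hI, Finset.mem_Ico] at hi
  refine ⟨i, hi.1, hi.2, fun j => ?_⟩
  have h6 := hij j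
  have h7 : (1 / 2 : ℝ) ^ mm i ≤ r i := (hk1 i).le
  exact ⟨h6.1, by linarith [h6.2]⟩

theorem coverProperty (n : ℕ) : CoverProperty n := by
  intro r hr0 hr1 hsum
  have H : ∀ N i₀ : ℕ, ∃ i₁ > i₀, ∃ c : ℕ → E n,
      ∀ x ∈ hbox n (N + 1), ∃ i, i₀ ≤ i ∧ i < i₁ ∧ x ∈ cube (c i) (r i) :=
    fun N i₀ => exists_stage_all r hr0 hr1 hsum (N + 1) i₀
  choose i₁ hi₁ c hc using H
  let I : ℕ → ℕ := fun N => Nat.rec 0 (fun N i => i₁ N i) N
  have hI0 : I 0 = 0 := rfl
  have hIs : ∀ N, I (N + 1) = i₁ N (I N) := fun N => rfl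
  have hmono : StrictMono I := strictMono_nat_of_lt_succ fun N => by rw [hIs]; exact hi₁ N _
  have hstage : ∀ i, ∃ N, I N ≤ i ∧ i < I (N + 1) := by
    intro i
    have hex : ∃ N, i < I (N + 1) := ⟨i, by have := hmono.id_le (i + 1); simp at this; omega⟩
    classical
    refine ⟨Nat.find hex, ?_, Nat.find_spec hex⟩
    rcases Nat.eq_zero_or_pos (Nat.find hex) with h | h
    · rw [h, hI0]; omega
    · have := Nat.find_min hex (m := Nat.find hex - 1) (by omega)
      rw [Nat.sub_add_cancel h] at this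
      omega
  choose st hst1 hst2 using hstage
  have hst : ∀ N i, I N ≤ i → i < I (N + 1) → st i = N := by
    intro N i h1 h2
    have h3 : I (st i) < I (N + 1) := (hst1 i).trans_lt h2
    have h4 : I N < I (st i + 1) := h1.trans_lt (hst2 i)
    have h5 : st i < N + 1 := hmono.lt_iff_lt.1 h3
    have h6 : N < st i + 1 := hmono.lt_iff_lt.1 h4
    omega
  refine ⟨fun i => c (st i) (I (st i)) i, fun x => ?_⟩
  rw [frequently_atTop]
  intro i₀
  have hbig : ∀ᶠ N : ℕ in atTop, x ∈ hbox n (N + 1) := by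
    filter_upwards [eventually_ge_atTop ⌈‖x‖⌉₊] with N hN i
    have h1 : ‖x‖ ≤ N := (Nat.le_ceil _).trans (by exact_mod_cast hN)
    have h2 : |x i| ≤ ‖x‖ := by
      have := PiLp.norm_apply_le x i
      rwa [Real.norm_eq_abs] at this
    have h3 := abs_le.1 (h2.trans h1)
    constructor
    · push_cast; linarith only [h3]
    · push_cast; linarith only [h3]
  obtain ⟨N, hN2, hN3⟩ := (hbig.and (eventually_ge_atTop i₀)).exists
  obtain ⟨i, hi1, hi2, hxi⟩ := hc N (I N) x hN2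
  refine ⟨i, ?_, ?_⟩
  · have := hmono.id_le N
    simp only [id] at this
    exact hN3.trans (this.trans hi1)
  · change x ∈ cube (c (st i) (I (st i)) i) (r i)
    rwa [hst N i hi1 hi2]

end Vale.Agent.P076
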