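import Vale.Agent.P076.Statement

open MeasureTheory Complex Filter Topology

namespace Vale.Agent.P076

/-- `f ∈ C₀(ℝⁿ)`: continuous and tending to `0` at infinity -/
def IsC0 {n : ℕ} (f : (Fin n → ℝ) → ℂ) : Prop :=
  Continuous f ∧ Tendsto f (cocompact (Fin n → ℝ)) (𝓝 0)

/-- blow-up at EVERY point: `e^{itΔ}f(x) = u t x` exists for all `t > 0` and all `x`, and
`limsup_{t ↓ 0} |u t x| = ∞` for every `x` (`g = f̂`) -/
def BlowUpEverywhere {n : ℕ} (g : (Fin n → ℝ) → ℂ) : Prop :=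
  ∃ u : ℝ → (Fin n → ℝ) → ℂ,
    (∀ t > 0, ∀ x, Tendsto (fun a => evolve g t a x) (𝓝[>] 0) (𝓝 (u t x))) ∧
      ∀ x, ∀ M : ℝ, ∃ᶠ t in 𝓝[>] (0 : ℝ), M < ‖u t x‖

end Vale.Agent.P076
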