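import Vale.Agent.P076.H18.Unified
set_option linter.all false

/-!
The gauge clause with continuous data vanishing at infinity.
-/

open MeasureTheory Complex FourierTransform Filter Topology
open scoped ENNReal NNReal

namespace Vale.Agent.P076

lemma neg_tG {m L κ : ℕ} (hL : 1 ≤ L) (hκ : 1 ≤ κ) (X : E (m + 1)) {S : ℝ} (hS : 0 < S) :
    ‖evo (tG m L κ) X (-S) 0‖ ≤ 12 / (tw m L κ * √S) := by
  have hw := tw_pos (m := m) hL hκ
  have hs : 0 < √S := Real.sqrt_pos.2 hS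
  have h0 : ‖∫ v in tS m L κ 0, cexp (oscE (X 0) (-S) (0 : ℝ) v)‖ ≤ 6 / √S := by
    have : ∫ v in tS m L κ 0, cexp (oscE (X 0) (-S) 0 v)
        = ∫ v in Set.Ico (tR m L κ / 2) (tR m L κ / 2 + tw m L κ), cexp (oscE (X 0) (-S) 0 v) := rfl
    rw [this]
    exact osc_second_neg _ (by linarith only [hw]) hS
  refine (norm_evo_tG_le hL hκ le_rfl (by positivity) h0).trans (le_of_eq ?_)
  field_simp
  norm_num

theorem thin_block0 (m : ℕ) {L : ℕ} (hL : 1 ≤ L) {V B s₀ ε : ℝ} (hV : 1 ≤ V) (hs₀ : 0 < s₀)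
    (hε : 0 < ε) (K : ℕ) : ∃ κ₀ ≥ 1, ∀ κ ≥ κ₀, ∃ k ≥ K, ∃ (F : E (m + 2) → ℂ) (s₁ : ℝ),
      IsBlock 2 k (thinSet m (nβ (m + 1) L κ) (nD (m + 1) L κ) L) Set.univ V
        (V ^ 2 * (tC m * (L : ℝ) ^ (-(((m + 1 : ℕ) : ℝ) / (((m + 1 : ℕ) : ℝ) + 2)))) *
          (2 : ℝ) ^ (-(2 * k * sCrit (m + 2)))) B s₀ ε s₁ F := by
  have hV0 : 0 < V := one_pos.trans_le hV
  obtain ⟨σ, hσ0, hσ1, hσ2⟩ : ∃ σ > 0, σ ≤ s₀ / 2 ∧ σ ≤ ε / 2 :=
    ⟨min (s₀ / 2) (ε / 2), by positivity, min_le_left _ _, min_le_right _ _⟩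
  obtain ⟨s₀', hs₀', hs₀e⟩ : ∃ s₀' > 0, s₀' = s₀ / 2 := ⟨_, by positivity, rfl⟩
  obtain ⟨ε', hε', hεe⟩ : ∃ ε' > 0, ε' = ε / 2 := ⟨_, by positivity, rfl⟩
  set Z : ℝ := 3 / ε' + 12 * V / (ε * √σ) + 2 * |B| / s₀' + 4 * V / (s₀' * ε') + 2 ^ K with hZ
  refine ⟨max 1 ⌈Z⌉₊, le_max_left _ _, fun κ hκ' => ?_⟩
  have hκ : 1 ≤ κ := (le_max_left _ _).trans hκ'
  have hκZ : Z ≤ κ := (Nat.le_ceil Z).trans (by exact_mod_cast (le_max_right _ _).trans hκ')
  have hh64 := th_ge64 (m := m + 1) hL hκ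
  have hR := tR_pos (m := m + 1) hL hκ
  have hw := tw_pos (m := m + 1) hL hκ
  have hκth : (κ : ℝ) ≤ th (m + 1) L κ := by
    unfold th
    have h1 := bM_ge (m := m + 1)
    have h2 : (1 : ℝ) ≤ L := by exact_mod_cast hL
    have h3 : (0 : ℝ) ≤ κ := by positivity
    push_cast
    calc (κ : ℝ) = 1 * (1 * κ) := by ring
      _ ≤ (bM (m + 1) : ℝ) * (L * κ) := by
          gcongr
          linarith only [h1]
  have hRZ : Z ≤ tR (m + 1) L κ := (hκZ.trans hκth).trans (tR_ge hL hκ)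
  have hwZ : Z ≤ tw (m + 1) L κ := (hκZ.trans hκth).trans (tw_ge hL hκ)
  have hσs : 0 < √σ := Real.sqrt_pos.2 hσ0
  have hp1 : 0 < 3 / ε' := by positivity
  have hp2 : 0 < 12 * V / (ε * √σ) := by positivity
  have hp3 : 0 ≤ 2 * |B| / s₀' := by (clear * - hs₀'; positivity)
  have hp4 : 0 < 4 * V / (s₀' * ε') := by positivity
  have hp5 : (0 : ℝ) < 2 ^ K := by positivity
  have hZ1 : 3 / ε' ≤ Z := by linarith only [hp2, hp3, hp4, hp5]
  have hZ2 : 12 * V / (ε * √σ) ≤ Z := by linarith only [hp1, hp3, hp4, hp5]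
  have hZ3 : 2 * |B| / s₀' ≤ Z := by linarith only [hp1, hp2, hp4, hp5]
  have hZ4 : 4 * V / (s₀' * ε') ≤ Z := by linarith only [hp1, hp2, hp3, hp5]
  have hZ5 : (2 : ℝ) ^ K ≤ Z := by linarith only [hp1, hp2, hp3, hp4]
  clear_value Z
  have hpi := Real.pi_gt_three
  have hpi4 := Real.pi_lt_d2
  have hw1 : 1 ≤ tw (m + 1) L κ := by linarith only [hh64, tw_ge (m := m + 1) hL hκ]
  obtain ⟨k, hk1, hk2⟩ := exists_nat_pow_near (x := Real.pi * tR (m + 1) L κ) (y := 2)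
    (by have := tR_ge (m := m + 1) hL hκ; linarith only [hh64, this, mul_le_mul_of_nonneg_right hpi.le hR.le]) (by norm_num)
  have hKk : K ≤ k := by
    have h1 : (2 : ℝ) ^ K < 2 ^ (k + 1) := by
      refine lt_of_le_of_lt ?_ hk2
      linarith only [hZ, hRZ, hp1, hp2, hp3, hp4, hR, mul_le_mul_of_nonneg_right hpi.le hR.le]
    have := (pow_lt_pow_iff_right₀ (by norm_num : (1 : ℝ) < 2)).1 h1
    omega
  have hnorm : ∀ η, ‖(V : ℂ) * tG (m + 1) L κ η‖ = V * ‖tG (m + 1) L κ η‖ := fun η => by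
    rw [norm_mul, Complex.norm_real, Real.norm_of_nonneg hV0.le]
  have hblk : IsBlock 2 k (thinSet m (nβ (m + 1) L κ) (nD (m + 1) L κ) L) ∅ V
        (V ^ 2 * (tC m * (L : ℝ) ^ (-(((m + 1 : ℕ) : ℝ) / (((m + 1 : ℕ) : ℝ) + 2)))) *
          (2 : ℝ) ^ (-(2 * k * sCrit (m + 2)))) B s₀' ε' (1 / (2 * tR (m + 1) L κ))
        (fun η => (V : ℂ) * tG (m + 1) L κ η) := by
   refine ⟨measurable_tG.const_mul _,  ⟨V * (2 / tV (m + 1) L κ), fun η => ?_⟩, fun η hη => ?_, ?_,
     by positivity, fun x hx => ?_, fun x hx => hx.elim, fun x hx s hs a ha => ?_⟩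
   · rw [hnorm]
     have hV' := tV_pos (m := m + 1) hL hκ
     gcongr
     unfold tG
     by_cases h : η ∈ tbox (m + 1) L κ
     · rw [Set.indicator_of_mem h, Complex.norm_real, Real.norm_of_nonneg (by (clear * - hV'; positivity))]
     · rw [Set.indicator_of_notMem h]; simp only [norm_zero]; (clear * - hV'; positivity)
   · have hmem : η ∈ tbox (m + 1) L κ := by
       by_contra hcon
       apply hη
       unfold tG
       rw [Set.indicator_of_notMem hcon, mul_zero]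
     obtain ⟨h1, h2⟩ := tbox_norm hL hκ hmem
     constructor
     · calc (2:ℝ) ^ k ≤ Real.pi * tR (m + 1) L κ := hk1
         _ = 2 * Real.pi * (tR (m + 1) L κ / 2) := by ring
         _ ≤ 2 * Real.pi * ‖η‖ := by (clear * - h1; gcongr)
     · calc 2 * Real.pi * ‖η‖ ≤ 2 * Real.pi * (3 / 5 * tR (m + 1) L κ) := by (clear * - h2; gcongr)
         _ = 6 / 5 * (Real.pi * tR (m + 1) L κ) := by ring
         _ < 6 / 5 * 2 ^ (k + 1) := by (clear * - hk2; gcongr)
         _ ≤ 2 * 2 ^ (k + 1) := by gcongr; norm_num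
         _ = 2 ^ (k + 2) := by ring
   · simp_rw [hnorm, mul_pow]
     rw [integral_const_mul, integral_norm_sq_tG hL hκ, mul_assoc]
     have := tcost (m := m + 1) hL hκ hk1
     unfold tC
     (clear * - this hV; gcongr)
   · obtain ⟨S, h1, h2, h3⟩ := tresonance hL hκ hx
     refine ⟨S, h1, h2.trans ?_, ?_⟩
     · rw [div_le_iff₀ hR]
       have : 3 / ε' ≤ tR (m + 1) L κ := hZ1.trans hRZ
       rw [div_le_iff₀ hε'] at this
       linarith only [this]
     · rw [evo_const_mul', norm_mul, Complex.norm_real, Real.norm_of_nonneg hV0.le]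
       linarith only [mul_le_mul_of_nonneg_left h3 hV0.le]
   · have hs0 : 0 < s := lt_of_lt_of_le hs₀' hs
     rw [evo_const_mul', norm_mul, Complex.norm_real, Real.norm_of_nonneg hV0.le]
     have h1 := tlate (m := m + 1) hL hκ (X := x) hs0 ha (by
       have hx0 : |x 0| ≤ ‖x‖ := by
         have h1 : ‖x 0‖ ≤ ‖x‖ := PiLp.norm_apply_le x 0
         rwa [Real.norm_eq_abs] at h1
       have h2 : 2 * |B| / s₀' ≤ tR (m + 1) L κ := hZ3.trans hRZ
       rw [div_le_iff₀ hs₀'] at h2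
       have h3 : tR (m + 1) L κ * s₀' ≤ tR (m + 1) L κ * s := by (clear * - hs hR; gcongr)
       have h4 : ‖x‖ ≤ |B| := hx.trans (le_abs_self B)
       linarith only [hx0, h2, h3, h4])
     have h2 : 4 * V / (s₀' * ε') ≤ tR (m + 1) L κ := hZ4.trans hRZ
     rw [div_le_iff₀ (by positivity)] at h2
     calc V * ‖evo (tG (m + 1) L κ) x s a‖ ≤ V * (4 / (tw (m + 1) L κ * (s * tR (m + 1) L κ))) := by
           (clear * - h1 hV; gcongr)
       _ ≤ V * (4 / (1 * (s₀' * tR (m + 1) L κ))) := by (clear * - hs₀' hR hw1 hs hw hV; gcongr)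
       _ = 4 * V / (s₀' * tR (m + 1) L κ) := by ring
       _ ≤ ε' := by
           rw [div_le_iff₀ (by positivity)]
           linarith only [h2]
  refine ⟨k, hKk, shiftG (fun η => (V : ℂ) * tG (m + 1) L κ η) σ, 1 / (2 * tR (m + 1) L κ) + σ,
    hblk.shift hσ0.le (by linarith) (by linarith) fun x => ?_⟩
  rw [evo_const_mul', norm_mul, Complex.norm_real, Real.norm_of_nonneg hV0.le]
  have h1 := neg_tG hL hκ x hσ0
  have h2 : 12 * V / (ε * √σ) ≤ tw (m + 1) L κ := hZ2.trans hwZ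
  rw [div_le_iff₀ (by positivity)] at h2
  calc V * ‖evo (tG (m + 1) L κ) x (-σ) 0‖ ≤ V * (12 / (tw (m + 1) L κ * √σ)) := by
        (clear * - h1 hV0; gcongr)
    _ = 12 * V / (tw (m + 1) L κ * √σ) := by ring
    _ ≤ ε := by
        rw [div_le_iff₀ (by positivity)]
        linarith only [h2]


theorem gaugeDiv0 (m : ℕ) {φ : ℝ≥0∞ → ℝ≥0∞}
    (hφ : Tendsto (fun r => φ r / r ^ (m + 2)) (𝓝[>] 0) (𝓝 ⊤)) :
    ∃ (f : Lp ℂ 2 (volume : Measure (E (m + 2)))) (u : ℝ → E (m + 2) → ℂ)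
      (z : E (m + 2) → ℂ),
      Integrable (fun ξ => (1 + ‖ξ‖ ^ 2) ^ sCrit (m + 2) * ‖hat f ξ‖ ^ 2) ∧
      (∀ᵐ x, f x = z x) ∧ Continuous z ∧ Tendsto z (cocompact (E (m + 2))) (𝓝 0) ∧
      (∀ t > 0, ∀ x, Tendsto (fun b => schrReg f t b x) (𝓝[>] 0) (𝓝 (u t x))) ∧
      Measure.mkMetric φ {x : E (m + 2) | ∀ M : ℝ, ∃ᶠ t in 𝓝[>] (0 : ℝ), M < ‖u t x‖} = ⊤ := by
  choose thr hthr1 hthr using fun j => exists_thr hφ j
  have hsc : 0 < sCrit (m + 2) := by unfold sCrit; positivity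
  set V : ℕ → ℝ := fun i => (i : ℝ) + 1 with hVdef
  have hV1 : ∀ i, 1 ≤ V i := fun i => by simp only [hVdef]; linarith only []
  set θ : ℝ := ((m + 1 : ℕ) : ℝ) / (((m + 1 : ℕ) : ℝ) + 2) with hθ
  have hθ3 : 1 / 3 ≤ θ := by
    rw [hθ, div_le_div_iff₀ (by norm_num) (by positivity)]
    push_cast
    linarith only []
  set Γ : ℕ → ℕ → ℝ := fun i k => V i ^ 2 * (tC m * (gL i : ℝ) ^ (-θ)) *
    (2 : ℝ) ^ (-(2 * k * sCrit (m + 2))) with hΓdef
  have hΓ : ∀ i, Tendsto (Γ i) atTop (𝓝 0) := by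
    intro i
    have h1 : Tendsto (fun k : ℕ => (2 : ℝ) ^ (-(2 * k * sCrit (m + 2)))) atTop (𝓝 0) := by
      have h2 : ∀ k : ℕ, (2 : ℝ) ^ (-(2 * k * sCrit (m + 2))) = ((2 : ℝ) ^ (-(2 * sCrit (m + 2)))) ^ k := by
        intro k
        rw [← Real.rpow_natCast, ← Real.rpow_mul (by norm_num)]
        congr 1; ring
      simp_rw [h2]
      exact tendsto_pow_atTop_nhds_zero_of_lt_one (by positivity)
        (Real.rpow_lt_one_of_one_lt_of_neg (by norm_num) (by linarith only [hsc]))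
    have := h1.const_mul (V i ^ 2 * (tC m * (gL i : ℝ) ^ (-θ)))
    rwa [mul_zero] at this
  obtain ⟨d, k, F, f, u, z, -, hd, hk, hFs, hFc, hf, hu, hz, hzc, hz0, hdiv⟩ :=
    master0 (n := m + 2) (α := ℕ × ℕ) 2 (gP thr) (fun i d => thinSet m d.1 d.2 (gL i))
      V (fun i => 1 / (i + 1)) Γ Set.univ (fun i => one_pos.trans_le (hV1 i))
      (fun i => by (clear * -; positivity)) hΓ
      (by
        intro i d B s₀ ε K hs₀ hε
        have hL : 1 ≤ gL i := by have := gL_two i; omega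
        obtain ⟨κ₀, hκ₀, hblk⟩ := thin_block0 m hL (B := B) (hV1 i) hs₀ hε K
        obtain ⟨κ, hκ, hP⟩ := gP_step m thr i d κ₀
        obtain ⟨k, hk, F, s₁, hF⟩ := hblk κ hκ
        exact ⟨(nβ (m + 1) (gL i) κ, nD (m + 1) (gL i) κ), k, F, s₁, hP, hk, Set.mem_univ _, hF⟩)
      (1, 1) 0
  refine ⟨f, u, z, ?_, hz, hzc, hz0, hu, ?_⟩
  · refine integrable_wide (w := 2) (fun i => (hk i).2.1) hFs hf (v := fun r => (1 + r ^ 2) ^ sCrit (m + 2))
      ((measurable_const.add (measurable_id.pow_const 2)).pow_const _) (fun r => by (clear * -; positivity))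
      (W := fun i => 32 * (2 : ℝ) ^ (2 * k i * sCrit (m + 2))) (fun i r h0 h1 => ?_) ?_
    · have hs1 : sCrit (m + 2) ≤ 1 := by
        unfold sCrit
        rw [div_le_one (by (clear * -; positivity))]
        push_cast
        linarith only []
      have h2k : (1 : ℝ) ≤ 2 ^ k i := one_le_pow₀ (by norm_num)
      have h3 : 1 + r ^ 2 ≤ 32 * (2 ^ k i) ^ 2 := by
        have h3 : r ^ 2 ≤ (2 ^ (k i + 2)) ^ 2 := by
          have : 0 ≤ r := le_trans (by positivity) h0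
          (clear * - this h1; gcongr)
        have h4 : ((2:ℝ) ^ (k i + 2)) ^ 2 = 16 * (2 ^ k i) ^ 2 := by rw [pow_add]; ring
        linarith only [h3, h4, one_le_pow₀ h2k (n := 2)]
      calc (1 + r ^ 2) ^ sCrit (m + 2) ≤ (32 * (2 ^ k i) ^ 2) ^ sCrit (m + 2) :=
            Real.rpow_le_rpow (by (clear * -; positivity)) h3 hsc.le
        _ = 32 ^ sCrit (m + 2) * (2 : ℝ) ^ (2 * k i * sCrit (m + 2)) := by
            rw [Real.mul_rpow (by norm_num) (by positivity), ← pow_mul, ← Real.rpow_natCast 2 (k i * 2),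
              ← Real.rpow_mul (by norm_num)]
            congr 2
            push_cast
            ring
        _ ≤ 32 ^ (1 : ℝ) * (2 : ℝ) ^ (2 * k i * sCrit (m + 2)) := by
            gcongr
            norm_num
        _ = _ := by rw [Real.rpow_one]
    · have hgeo : Summable fun i : ℕ => 32 * tC m * (1 / 2 : ℝ) ^ (i + 1) :=
        ((summable_nat_add_iff 1).2 (summable_geometric_of_lt_one (by norm_num) (by norm_num))).mul_left _
      refine Summable.of_nonneg_of_le (fun i => ?_) (fun i => ?_) hgeo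
      · have : 0 ≤ ∫ η, ‖F i η‖ ^ 2 := integral_nonneg fun _ => by (clear * -; positivity)
        (clear * -; positivity)
      · have h3 := hFc i
        simp only [hΓdef] at h3
        have htC := tC_pos (m := m)
        have hgL := gL_rpow i hθ3
        calc 32 * (2 : ℝ) ^ (2 * k i * sCrit (m + 2)) * ∫ η, ‖F i η‖ ^ 2
            ≤ 32 * (2 : ℝ) ^ (2 * k i * sCrit (m + 2)) * (V i ^ 2 * (tC m * (gL i : ℝ) ^ (-θ)) *
              (2 : ℝ) ^ (-(2 * k i * sCrit (m + 2)))) := by (clear * - h3; gcongr)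
          _ = 32 * tC m * (((i : ℝ) + 1) ^ 2 * (gL i : ℝ) ^ (-θ)) *
              ((2 : ℝ) ^ (2 * k i * sCrit (m + 2)) * (2 : ℝ) ^ (-(2 * k i * sCrit (m + 2)))) := by
              simp only [hVdef]
              ring
          _ = 32 * tC m * (((i : ℝ) + 1) ^ 2 * (gL i : ℝ) ^ (-θ)) := by
              rw [← Real.rpow_add (by norm_num), add_neg_cancel, Real.rpow_zero, mul_one]
          _ ≤ 32 * tC m * (1 / 2 : ℝ) ^ (i + 1) := by (clear * - hgL htC; gcongr)
  · set β : ℕ → ℕ := fun i => (d (i + 1)).1 with hβ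
    set D : ℕ → ℕ := fun i => (d (i + 1)).2 with hD
    have hdata : CantorData (gA β D) gΛ :=
      cantorData_of (fun i => (hd i).1) (fun i => (hd i).2.1) (fun i => (hd i).2.2.1)
        (fun i => (hd i).2.2.2.1)
        (fun i => ((hd (i + 1)).2.2.2.2.2.2 (hd i).2.1).1)
        (fun i => ((hd (i + 1)).2.2.2.2.2.2 (hd i).2.1).2)
    have hthrA : ∀ j, thr j ≤ gA β D j := by
      intro j
      obtain ⟨i, rfl | rfl⟩ : ∃ i, j = 2 * i ∨ j = 2 * i + 1 := ⟨j / 2, by omega⟩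
      · rw [gA_even]; exact (hd i).2.2.2.2.1
      · rw [gA_odd]; exact (hd i).2.2.2.2.2.1
    have hprob : IsProbabilityMeasure (gμ (m + 1) (gA β D) gΛ) := hdata.isProb_gμ
    refine hdata.mkMetric_eq_top (m := m + 1) (fun j r hr0 hr1 => ?_) ?_
    · refine hthr j r hr0 (hr1.trans ?_)
      have h1 : (0:ℝ) < thr j := by
        have := hthr1 j
        exact_mod_cast this
      apply one_div_le_one_div_of_le h1
      exact_mod_cast hthrA j
    · -- almost every point of the product measure diverges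
      have hae : ∀ᵐ x ∂(gμ (m + 1) (gA β D) gΛ),
          x ∈ {x : E (m + 2) | ∀ M : ℝ, ∃ᶠ t in 𝓝[>] (0 : ℝ), M < ‖u t x‖} := by
        filter_upwards [hdata.ae_gμ (m := m + 1)] with x hx
        have hzone : x ∈ zone (m + 1) := by
          refine ⟨?_, fun i => ?_⟩
          · have h1 := (hx 0).1
            rw [if_pos rfl] at h1
            exact ⟨by linarith only [h1.1], by linarith only [h1.2]⟩
          · have h1 := (hx i.succ).1
            rw [if_neg (Fin.succ_ne_zero i), sub_zero] at h1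
            exact ⟨h1.1, h1.2.le⟩
        have hthin : ∀ i, x ∈ thinSet m (d (i + 1)).1 (d (i + 1)).2 (gL i) := by
          intro i
          refine ⟨hzone, ?_, ?_⟩
          · have h1 := (hx 0).2 (2 * i)
            rwa [gA_even, gΛ_even] at h1
          · have h1 := (hx (Fin.last (m + 1))).2 (2 * i + 1)
            rwa [gA_odd, gΛ_odd] at h1
        intro M
        rw [frequently_iff]
        intro U hU
        obtain ⟨ε, hε, hεU⟩ := mem_nhdsGT_iff_exists_Ioo_subset.1 hU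
        have h1 : ∀ᶠ i : ℕ in atTop, (1:ℝ) / (i + 1) < ε :=
          tendsto_one_div_add_atTop_nhds_zero_nat.eventually (gt_mem_nhds hε)
        have h2 : ∀ᶠ i : ℕ in atTop, M + ‖z x‖ < V i / 2 := by
          obtain ⟨N, hN⟩ := exists_nat_ge (2 * (M + ‖z x‖))
          filter_upwards [eventually_ge_atTop N] with i hi
          have : (N : ℝ) ≤ i := by exact_mod_cast hi
          simp only [hVdef]
          linarith only [hN, this]
        obtain ⟨i, h3, h4, h5⟩ := (h1.and (h2.and (hdiv x))).exists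
        obtain ⟨t, ht0, ht1, ht2⟩ := h5 (hthin i)
        refine ⟨t, hεU ⟨ht0, ht1.trans_lt h3⟩, ?_⟩
        have h6 := norm_sub_le (u t x) (z x)
        linarith only [h4, ht2, h6]
      intro h0
      have h1 : gμ (m + 1) (gA β D) gΛ Set.univ = 0 := by
        have h2 : (Set.univ : Set (E (m + 2))) ⊆
            {x : E (m + 2) | ∀ M : ℝ, ∃ᶠ t in 𝓝[>] (0 : ℝ), M < ‖u t x‖} ∪
            {x : E (m + 2) | ∀ M : ℝ, ∃ᶠ t in 𝓝[>] (0 : ℝ), M < ‖u t x‖}ᶜ := by simp
        refine measure_mono_null h2 (measure_union_null h0 ?_)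
        exact hae
      rw [measure_univ] at h1
      exact one_ne_zero h1

end Vale.Agent.P076
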