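import Vale.Agent.P076.H18.Defs
import Vale.Agent.P076.H18.Cover
import Vale.Agent.P076.H18.Thin
set_option linter.all false

/-!
Translation to functions on `Fin n → ℝ`.
-/

open MeasureTheory Complex Filter Topology
open scoped ENNReal

namespace Vale.Agent.P076

variable {n : ℕ}

lemma IsFourierPair.congr_left {f f' g : (Fin n → ℝ) → ℂ} (h : IsFourierPair f g)
    (hff : f =ᵐ[volume] f') : IsFourierPair f' g := by
  refine ⟨h.1.ae_eq hff, h.2.1, ?_⟩
  have key : ∀ (R : ℝ) (ξ : Fin n → ℝ),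
      ∫ x in {x | ∀ i, |x i| ≤ R}, cexp (-(I * ∑ i, x i * ξ i)) * f' x
        = ∫ x in {x | ∀ i, |x i| ≤ R}, cexp (-(I * ∑ i, x i * ξ i)) * f x := by
    intro R ξ
    refine integral_congr_ae (ae_restrict_of_ae ?_)
    filter_upwards [hff] with x hx
    rw [hx]
  simp_rw [key]
  exact h.2.2

lemma continuous_toE : Continuous (toE (n := n)) := by
  unfold toE
  exact (PiLp.continuous_toLp 2 _)

lemma isC0_comp {z : E n → ℂ} (h1 : Continuous z) (h2 : Tendsto z (cocompact (E n)) (𝓝 0)) :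
    IsC0 (fun x : Fin n → ℝ => z (toE x)) := by
  refine ⟨h1.comp continuous_toE, ?_⟩
  have h3 : Topology.IsClosedEmbedding (toE (n := n)) := by
    have := (PiLp.homeomorph 2 (fun _ : Fin n => ℝ)).symm.isClosedEmbedding
    exact this
  exact h2.comp h3.tendsto_cocompact

lemma fourierPair_of {f : Lp ℂ 2 (volume : Measure (E n))} {z : E n → ℂ}
    (h : ∀ᵐ x, f x = z x) : IsFourierPair (fun x : Fin n → ℝ => z (toE x)) (freq f) :=
  (isFourierPair f).congr_left (ae_toE h)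

lemma blowUpEverywhere_of {f : Lp ℂ 2 (volume : Measure (E n))} {u : ℝ → E n → ℂ}
    (h1 : ∀ t > 0, ∀ x, Tendsto (fun b => schrReg f t b x) (𝓝[>] 0) (𝓝 (u t x)))
    (h2 : ∀ x, ∀ M : ℝ, ∃ᶠ t in 𝓝[>] (0 : ℝ), M < ‖u t x‖) : BlowUpEverywhere (freq f) := by
  refine ⟨fun t x => u t (toE x), fun t ht x => ?_, fun x => h2 (toE x)⟩
  simp_rw [evolve_freq]
  exact h1 t ht (toE x)

theorem unifiedConclusion0 (hn : 1 ≤ n) : UnifiedConclusion0 n := by
  obtain ⟨m, rfl⟩ : ∃ m, n = m + 1 := ⟨n - 1, by omega⟩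
  obtain ⟨C, hC, hB⟩ := exists_block0 m
  exact unified0 hn (coverProperty _) hC hB

end Vale.Agent.P076
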