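import Vale.Agent.P076.H18.Blocks
import Mathlib.Analysis.Fourier.RiemannLebesgueLemma
set_option linter.all false

/-!
The recursion with uniformly small initial values: the sum of the initial values is a continuous
function vanishing at infinity, and the divergence estimate holds at every point.
-/

open MeasureTheory Complex FourierTransform Filter Topology
open scoped ENNReal NNReal

namespace Vale.Agent.P076

variable {n : ℕ}

lemma evo_zero_eq (G : E n → ℂ) (x : E n) :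
    evo G x 0 0 = ∫ η, Real.fourierChar (-inner ℝ η (-x)) • G η := by
  rw [evo_eq]
  congr 1
  ext η
  rw [ph, Circle.smul_def, Real.fourierChar_apply, smul_eq_mul, inner_neg_right, neg_neg,
    real_inner_comm]
  congr 2
  push_cast
  ring

lemma continuous_evo_zero {G : E n → ℂ} (hG : Integrable G) : Continuous fun x => evo G x 0 0 := by
  have h : (fun x => evo G x 0 0) = (𝓕⁻ G : E n → ℂ) := by
    ext x
    rw [Real.fourierInv_eq', evo_eq]
    congr 1
    ext η
    rw [smul_eq_mul, ph, real_inner_comm]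
    congr 2
    push_cast
    ring
  rw [h]
  exact continuous_fourierInv hG

lemma tendsto_evo_zero (G : E n → ℂ) :
    Tendsto (fun x => evo G x 0 0) (cocompact (E n)) (𝓝 0) := by
  simp_rw [evo_zero_eq]
  exact (tendsto_integral_exp_inner_smul_cocompact G).comp
    (Homeomorph.neg (E n)).isClosedEmbedding.tendsto_cocompact

theorem master0 {α : Type} (w : ℕ) (P : ℕ → α → α → Prop) (S : ℕ → α → Set (E n))
    (V e : ℕ → ℝ) (Γ : ℕ → ℕ → ℝ) (A : Set ℕ) (hV : ∀ i, 0 < V i)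
    (he : ∀ i, 0 < e i) (hΓ : ∀ i, Tendsto (Γ i) atTop (𝓝 0))
    (hstep : ∀ (i : ℕ) (d : α) (B s₀ ε : ℝ) (K : ℕ), 0 < s₀ → 0 < ε →
      ∃ (d' : α) (k : ℕ) (F : E n → ℂ) (s₁ : ℝ), P i d d' ∧ K ≤ k ∧ k ∈ A ∧
        IsBlock w k (S i d') Set.univ (V i) (Γ i k) B s₀ ε s₁ F) (d₀ : α) (k₀ : ℕ) :
    ∃ (d : ℕ → α) (k : ℕ → ℕ) (F : ℕ → E n → ℂ) (f : Lp ℂ 2 (volume : Measure (E n)))
      (u : ℝ → E n → ℂ) (z : E n → ℂ),
      d 0 = d₀ ∧ (∀ i, P i (d i) (d (i + 1))) ∧
      (∀ i, k₀ + w ≤ k i ∧ k i + w ≤ k (i + 1) ∧ k i ∈ A) ∧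
      (∀ i η, F i η ≠ 0 → 2 ^ (k i) ≤ 2 * Real.pi * ‖η‖ ∧ 2 * Real.pi * ‖η‖ < 2 ^ (k i + w)) ∧
      (∀ i, ∫ η, ‖F i η‖ ^ 2 ≤ Γ i (k i)) ∧
      (∀ᵐ η, HasSum (fun i => F i η) ((𝓕 f : Lp ℂ 2 (volume : Measure (E n))) η)) ∧
      (∀ t > 0, ∀ x, Tendsto (fun b => schrReg f t b x) (𝓝[>] 0) (𝓝 (u t x))) ∧
      (∀ᵐ x, f x = z x) ∧ Continuous z ∧ Tendsto z (cocompact (E n)) (𝓝 0) ∧
      (∀ x : E n, ∀ᶠ i in atTop, x ∈ S i (d (i + 1)) →
        ∃ t, 0 < t ∧ t ≤ e i ∧ V i / 2 ≤ ‖u t x - z x‖) := by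
  obtain ⟨st, hd, hk, hpos, hrel⟩ := exists_chain w P S Set.univ V e (wt V) Γ A he (wt_pos hV) hΓ
    hstep d₀ k₀
  set F : ℕ → E n → ℂ := fun i => (st (i + 1)).F with hF
  have hblock : ∀ i, ∃ s₁, (st (i + 1)).σ ≤ s₁ ∧
      IsBlock w (st (i + 1)).k (S i (st (i + 1)).d) Set.univ (V i)
        (min (Γ i (st (i + 1)).k) (wt V i ^ 4)) i (st i).σ
        (min (e i) (wt V i ^ 2 / ((st i).M + 1))) s₁ (F i) := fun i => (hrel i).2.2.2.2.2.2.2
  choose s₁ hs₁ hblk using hblock
  have hτ0 : ∀ i, 0 < wt V i := wt_pos hV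
  have hτ1 : ∀ i, wt V i ≤ 1 := fun i => (wt_le_one hV i).trans (pow_le_one₀ (by norm_num) (by norm_num))
  have hε : ∀ i, min (e i) (wt V i ^ 2 / ((st i).M + 1)) ≤ wt V i ^ 2 := by
    intro i
    refine (min_le_right _ _).trans (div_le_self (by (clear * -; positivity)) ?_)
    linarith only [(hpos i).2]
  have hsumwt : Summable fun i => wt V i ^ 2 := by
    refine Summable.of_nonneg_of_le (fun i => by positivity) (fun i => ?_)
      (summable_geometric_of_lt_one (by norm_num : (0:ℝ) ≤ 1 / 4) (by norm_num))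
    have h1 := wt_le_one hV i
    have h2 : ((1:ℝ) / 4) ^ (i + 2) ≤ (1 / 4) ^ i :=
      pow_le_pow_of_le_one (by norm_num) (by norm_num) (by omega)
    nlinarith only [h1, h2, hτ0 i, hτ1 i]
  have hP : Pieces F (fun i => wt V i ^ 2) := by
    refine ⟨fun i => ?_, fun i => ?_, fun i => ?_, fun i => ?_, hsumwt⟩
    · exact integrable_of_bdd (hblk i).meas (hblk i).bdd (hblk i).norm_le
    · exact memLp_of_bdd (hblk i).meas (hblk i).bdd (hblk i).norm_le 2
    · refine (hblk i).cost.trans ((min_le_right _ _).trans (le_of_eq ?_))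
      ring
    · have := hτ0 i
      positivity
  have hanti : Antitone fun i => (st i).σ := antitone_nat_of_succ_le fun i => (hrel i).2.2.2.1
  have hmono : Monotone fun i => (st i).M := monotone_nat_of_le_succ fun i => (hrel i).2.2.2.2.2.1
  have hσ : Tendsto (fun i => (st i).σ) atTop (𝓝 0) := by
    rw [← tendsto_add_atTop_iff_nat 1]
    refine squeeze_zero (fun i => (hpos (i + 1)).1.le) (fun i => (hrel i).2.2.2.2.1)
      tendsto_one_div_add_atTop_nhds_zero_nat
  obtain ⟨f, hf1, hf2⟩ := exists_f hP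
  have htail : ∀ i : ℕ, ∀ x : E n, ‖x‖ ≤ i → ∀ s ≥ (st i).σ, ∀ a ≥ 0,
      ‖evo (F i) x s a‖ ≤ wt V i ^ 2 := fun i x hx s hs a ha =>
    ((hblk i).tail x hx s hs a ha).trans (hε i)
  have hevo : ∀ t : ℝ, 0 < t → ∀ x : E n,
      Summable (fun i => evo (F i) x (2 * Real.pi * t) 0) ∧
      Tendsto (fun b => schrReg f t b x) (𝓝[>] 0) (𝓝 (∑' i, evo (F i) x (2 * Real.pi * t) 0)) :=
    fun t ht x => exists_evolution hP hf1 hσ htail (t := t) ht x
  have hsmall : ∀ i, ∀ l < i, ∀ x : E n, ∀ s, 0 ≤ s → s ≤ min (e i) (wt V i ^ 2 / ((st i).M + 1)) →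
      ‖evo (F l) x s 0 - evo (F l) x 0 0‖ ≤ wt V i ^ 2 := by
    intro i l hl x s hs0 hs
    refine (evo_sub_le (hP.int l)
      (integrable_mom_of_bdd (hblk l).meas (hblk l).bdd (hblk l).norm_le) x hs0).trans ?_
    have h1 : mom (F l) ≤ (st i).M := (hrel l).2.2.2.2.2.2.1.trans (hmono (by omega : l + 1 ≤ i))
    have h2 : 0 < (st i).M + 1 := by linarith only [(hpos i).2]
    have h3 : s ≤ wt V i ^ 2 / ((st i).M + 1) := hs.trans (min_le_right _ _)
    rw [le_div_iff₀ h2] at h3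
    have := mom_nonneg (F l)
    exact (mul_le_mul_of_nonneg_left (by linarith only [h1]) hs0).trans h3
  have hinit : ∀ i x, ‖evo (F i) x 0 0‖ ≤ wt V i ^ 2 := fun i x =>
    ((hblk i).init x (Set.mem_univ x)).trans (hε i)
  refine ⟨fun i => (st i).d, fun i => (st (i + 1)).k, F, f,
    fun t x => ∑' l, evo (F l) x (2 * Real.pi * t) 0, fun x => ∑' l, evo (F l) x 0 0,
    hd, fun i => (hrel i).1, ?_,
    fun i => (hblk i).supp, fun i => (hblk i).cost.trans (min_le_left _ _), hf1,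
    fun t ht x => (hevo t ht x).2, ?_, ?_, ?_, ?_⟩
  · have hkmono : ∀ i, (st i).k + w ≤ (st (i + 1)).k := fun i => (hrel i).2.1
    have hk0 : ∀ i, k₀ ≤ (st i).k := by
      intro i
      induction i with
      | zero => exact hk.ge
      | succ i ih => exact (ih.trans (Nat.le_add_right _ _)).trans (hkmono i)
    exact fun i => ⟨(Nat.add_le_add_right (hk0 i) w).trans (hkmono i), hkmono (i + 1), (hrel i).2.2.1⟩
  · filter_upwards [hf2] with x hx
    exact hx.tsum_eq.symm
  · exact continuous_tsum (fun i => continuous_evo_zero (hP.int i)) hsumwt hinit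
  · have h : Tendsto (fun x => ∑' i, evo (F i) x 0 0) (cocompact (E n)) (𝓝 (∑' _ : ℕ, (0:ℂ))) :=
      tendsto_tsum_of_dominated_convergence hsumwt
        (fun i => tendsto_evo_zero (F i)) (Eventually.of_forall fun x i => hinit i x)
    rwa [tsum_zero] at h
  · intro x
    have hs2 : Summable fun l => evo (F l) x 0 0 :=
      Summable.of_norm_bounded hsumwt fun l => hinit l x
    filter_upwards [eventually_ge_atTop ⌈‖x‖⌉₊] with i hi hxS
    obtain ⟨s, hs1, hs2', hs3⟩ := (hblk i).good x hxS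
    have hs0 : 0 < s := (hblk i).pos.trans_le hs1
    have hpi := Real.pi_gt_three
    have hst : 2 * Real.pi * (s / (2 * Real.pi)) = s := by (clear * - hs0; field_simp)
    refine ⟨s / (2 * Real.pi), by (clear * - hs0; positivity), ?_, ?_⟩
    · refine (div_le_self hs0.le (by linarith only [hpi])).trans (hs2'.trans (min_le_left _ _))
    · rw [hst]
      have hxi : ‖x‖ ≤ i := (Nat.le_ceil _).trans (by exact_mod_cast hi)
      refine diverge_at (τ := wt V) (fun l hl => wt_le hV hl) (fun l => (hτ0 l).le) hτ1 (hV i)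
        hs3 (fun l hl => hsmall i l hl x s hs0.le hs2') ?_ ?_ ?_ hs2
      · intro l hl
        refine htail l x (hxi.trans (by exact_mod_cast hl.le)) s ?_ 0 le_rfl
        exact (hanti (by omega : i + 1 ≤ l)).trans ((hs₁ i).trans hs1)
      · intro l hl
        refine (hinit l x).trans ?_
        nlinarith only [hτ0 l, hτ1 l]
      · have := (hevo (s / (2 * Real.pi)) (by (clear * - hs0; positivity)) x).1
        rwa [hst] at this

end Vale.Agent.P076
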