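import Vale.Agent.P076.Bdl.All
set_option linter.all false

/-!
Second-derivative test for the one-dimensional chirp integrals, uniform in the linear phase, and
the resulting bound of the unit blocks at every non-zero time, uniform in the position.
-/

open MeasureTheory Complex Filter Topology

namespace Vale.Agent.P076

lemma fresnel_far (N : ℕ) : ∀ x y : ℝ, 1 ≤ x → x ≤ y → y ≤ 2 ^ N * x →
    ‖∫ v in x..y, cexp (oscE 0 1 0 v)‖ ≤ 2 / x := by
  induction N with
  | zero =>
    intro x y hx hxy hy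
    have : y = x := by rw [pow_zero, one_mul] at hy; linarith
    rw [this, intervalIntegral.integral_same, norm_zero]
    positivity
  | succ N ih =>
    intro x y hx hxy hy
    have hx0 : 0 < x := by linarith
    have hosc : ∀ w, 0 ≤ w → w ≤ x →
        ‖∫ v in x..(x + w), cexp (oscE 0 1 0 v)‖ ≤ 1 / x := by
      intro w hw0 hw
      have := osc_bound (X := 0) (S := 1) (a := 0) hx0 hw0 hw one_pos le_rfl
        (by rw [abs_zero]; positivity)
      rwa [one_mul] at this
    rcases le_total y (2 * x) with h | h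
    · have h1 := hosc (y - x) (by linarith) (by linarith)
      rw [add_sub_cancel] at h1
      refine h1.trans ?_
      gcongr
      norm_num
    · have h1 := hosc x hx0.le le_rfl
      have h2 := ih (2 * x) y (by linarith) h (by rw [pow_succ] at hy; linarith)
      have h3 : x + x = 2 * x := by ring
      rw [h3] at h1
      have hc : ∀ a b : ℝ, IntervalIntegrable (fun v => cexp (oscE 0 1 0 v)) volume a b :=
        fun a b => (continuous_oscE 0 1 0).cexp.intervalIntegrable _ _
      rw [← intervalIntegral.integral_add_adjacent_intervals (hc x (2 * x)) (hc (2 * x) y)]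
      refine (norm_add_le _ _).trans ((add_le_add h1 h2).trans (le_of_eq ?_))
      field_simp
      norm_num

lemma fresnel_one {x y : ℝ} (hx : 1 ≤ x) (hxy : x ≤ y) :
    ‖∫ v in x..y, cexp (oscE 0 1 0 v)‖ ≤ 2 := by
  obtain ⟨N, hN⟩ := pow_unbounded_of_one_lt (y / x) (by norm_num : (1 : ℝ) < 2)
  have hx0 : 0 < x := by linarith
  rw [div_lt_iff₀ hx0] at hN
  refine (fresnel_far N x y hx hxy hN.le).trans ?_
  rw [div_le_iff₀ hx0]
  linarith

lemma norm_chirp (v : ℝ) : ‖cexp (oscE 0 1 0 v)‖ = 1 := by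
  rw [norm_exp_oscE]; simp

lemma fresnel_pos {x : ℝ} (hx : 0 ≤ x) : ‖∫ v in (0:ℝ)..x, cexp (oscE 0 1 0 v)‖ ≤ 3 := by
  have hle : ∀ y : ℝ, 0 ≤ y → ‖∫ v in (0:ℝ)..y, cexp (oscE 0 1 0 v)‖ ≤ y := by
    intro y hy
    have := intervalIntegral.norm_integral_le_of_norm_le_const (a := 0) (b := y) (C := 1)
      (f := fun v => cexp (oscE 0 1 0 v)) (fun v _ => (norm_chirp v).le)
    rwa [sub_zero, abs_of_nonneg hy, one_mul] at this
  rcases le_total x 1 with h | h
  · exact (hle x hx).trans (by linarith)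
  · have hc : ∀ a b : ℝ, IntervalIntegrable (fun v => cexp (oscE 0 1 0 v)) volume a b :=
      fun a b => (continuous_oscE 0 1 0).cexp.intervalIntegrable _ _
    rw [← intervalIntegral.integral_add_adjacent_intervals (hc 0 1) (hc 1 x)]
    refine (norm_add_le _ _).trans ((add_le_add (hle 1 zero_le_one) (fresnel_one le_rfl h)).trans ?_)
    norm_num

lemma chirp_neg (v : ℝ) : cexp (oscE 0 1 0 (-v)) = cexp (oscE 0 1 0 v) := by
  congr 1
  unfold oscE
  push_cast
  ring

lemma fresnel_zero (x : ℝ) : ‖∫ v in (0:ℝ)..x, cexp (oscE 0 1 0 v)‖ ≤ 3 := by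
  rcases le_total 0 x with h | h
  · exact fresnel_pos h
  · have h1 := intervalIntegral.integral_comp_neg (a := 0) (b := -x)
      (fun v => cexp (oscE 0 1 0 v))
    simp only [chirp_neg, neg_neg, neg_zero] at h1
    rw [intervalIntegral.integral_symm, norm_neg, ← h1]
    exact fresnel_pos (by linarith)

lemma fresnel (x y : ℝ) : ‖∫ v in x..y, cexp (oscE 0 1 0 v)‖ ≤ 6 := by
  have hc : ∀ a b : ℝ, IntervalIntegrable (fun v => cexp (oscE 0 1 0 v)) volume a b :=
    fun a b => (continuous_oscE 0 1 0).cexp.intervalIntegrable _ _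
  rw [← intervalIntegral.integral_interval_sub_left (hc 0 y) (hc 0 x)]
  refine (norm_sub_le _ _).trans ((add_le_add (fresnel_zero y) (fresnel_zero x)).trans ?_)
  norm_num

/-- second-derivative test, uniform in the linear phase -/
lemma osc_second (X α β : ℝ) {S : ℝ} (hS : 0 < S) :
    ‖∫ v in α..β, cexp (oscE X S 0 v)‖ ≤ 6 / √S := by
  have hs : 0 < √S := Real.sqrt_pos.2 hS
  have hs2 : √S * √S = S := Real.mul_self_sqrt hS.le
  have h1 : ∀ v : ℝ, cexp (oscE X S 0 v) = cexp (2 * Real.pi * I * ((X ^ 2 / (4 * S) : ℝ) : ℂ)) *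
      cexp (oscE 0 1 0 (√S * v - X / (2 * √S))) := by
    intro v
    rw [← Complex.exp_add]
    congr 1
    unfold oscE
    have h2 : X * v - S * v ^ 2 = X ^ 2 / (4 * S) - (√S * v - X / (2 * √S)) ^ 2 := by
      have h3 : (√S * v - X / (2 * √S)) ^ 2
          = (√S * √S) * v ^ 2 - X * v + X ^ 2 / (4 * (√S * √S)) := by
        field_simp
        ring
      rw [h3, hs2]
      ring
    have h4 : ((X : ℂ) * v - S * v ^ 2) = ((X ^ 2 / (4 * S) - (√S * v - X / (2 * √S)) ^ 2 : ℝ) : ℂ) := by
      rw [← h2]; push_cast; ring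
    rw [h4]
    push_cast
    ring
  simp_rw [h1]
  rw [intervalIntegral.integral_const_mul, norm_mul]
  have h5 : ‖cexp (2 * Real.pi * I * ((X ^ 2 / (4 * S) : ℝ) : ℂ))‖ = 1 := by
    have : (2 * Real.pi * I * ((X ^ 2 / (4 * S) : ℝ) : ℂ)) = ((2 * Real.pi * (X ^ 2 / (4 * S)) : ℝ) : ℂ) * I := by
      push_cast; ring
    rw [this, Complex.norm_exp_ofReal_mul_I]
  rw [h5, one_mul, intervalIntegral.integral_comp_mul_sub (fun v => cexp (oscE 0 1 0 v)) hs.ne',
    norm_smul, norm_inv, Real.norm_of_nonneg hs.le]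
  calc (√S)⁻¹ * ‖∫ v in (√S * α - X / (2 * √S))..(√S * β - X / (2 * √S)), cexp (oscE 0 1 0 v)‖
      ≤ (√S)⁻¹ * 6 := by
        gcongr
        exact fresnel _ _
    _ = 6 / √S := by ring

/-- the same on half-open intervals and at negative times -/
lemma osc_second_neg (X : ℝ) {α β S : ℝ} (hαβ : α ≤ β) (hS : 0 < S) :
    ‖∫ v in Set.Ico α β, cexp (oscE X (-S) 0 v)‖ ≤ 6 / √S := by
  have h1 : ∀ v : ℝ, cexp (oscE X (-S) 0 v) = (starRingEnd ℂ) (cexp (oscE (-X) S 0 v)) := by
    intro v
    rw [← Complex.exp_conj]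
    congr 1
    unfold oscE
    simp only [map_sub, map_mul, Complex.conj_I, Complex.conj_ofReal, map_pow, map_ofNat,
      Complex.ofReal_neg, map_neg, Complex.ofReal_zero, map_zero]
    ring
  simp_rw [h1]
  rw [integral_conj, RCLike.norm_conj, integral_Ico_eq_integral_Ioc,
    ← intervalIntegral.integral_of_le hαβ]
  exact osc_second _ _ _ hS

end Vale.Agent.P076
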