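import Vale.Agent.P076.H18.Master
set_option linter.all false

/-!
The divergence theorems with continuous data vanishing at infinity, at every point.
-/

open MeasureTheory Complex FourierTransform Filter Topology
open scoped ENNReal NNReal

namespace Vale.Agent.P076

variable {n : ℕ}

/-- every-point covering property in dimension `n` -/
def CoverProperty (n : ℕ) : Prop :=
  ∀ r : ℕ → ℝ, (∀ i, 0 < r i) → (∀ i, r i ≤ 1) → (¬ Summable fun i => r i ^ n) →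
    ∃ c : ℕ → E n, ∀ x : E n, ∃ᶠ i in atTop, x ∈ cube (c i) (r i)

/-- The conclusion of the unified divergence theorem in dimension `n`, everywhere version. -/
def UnifiedConclusion0 (n : ℕ) : Prop :=
  ∀ a : ℕ → ℝ, (∀ i, 0 < a i) → (¬ Summable fun i => a i ^ (2 + 2 / (n : ℝ))) →
    ∀ A : Set ℕ, A.Infinite → ∃ k : ℕ → ℕ, StrictMono k ∧ (∀ i, k i ∈ A) ∧
      ∃ (f : Lp ℂ 2 (volume : Measure (E n))) (u : ℝ → E n → ℂ) (z : E n → ℂ),
        (∀ᵐ ξ, hat f ξ ≠ 0 → ∃ i, 2 ^ k i ≤ ‖ξ‖ ∧ ‖ξ‖ < 2 ^ (k i + 1)) ∧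
        (∀ i, 2 ^ (k i * sCrit n) * shellNorm f (k i) ≤ a i) ∧
        (∀ᵐ x, f x = z x) ∧ Continuous z ∧ Tendsto z (cocompact (E n)) (𝓝 0) ∧
        (∀ t > 0, ∀ x, Tendsto (fun b => schrReg f t b x) (𝓝[>] 0) (𝓝 (u t x))) ∧
        ∀ x, ∀ M : ℝ, ∃ᶠ t in 𝓝[>] (0 : ℝ), M < ‖u t x‖

lemma supp_of_pieces {F : ℕ → E n → ℂ} {k : ℕ → ℕ} {w : ℕ}
    {f : Lp ℂ 2 (volume : Measure (E n))}
    (hFs : ∀ i η, F i η ≠ 0 → 2 ^ (k i) ≤ 2 * Real.pi * ‖η‖ ∧ 2 * Real.pi * ‖η‖ < 2 ^ (k i + w))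
    (hf : ∀ᵐ η, HasSum (fun i => F i η) ((𝓕 f : Lp ℂ 2 (volume : Measure (E n))) η)) :
    ∀ᵐ ξ, hat f ξ ≠ 0 → ∃ i, 2 ^ k i ≤ ‖ξ‖ ∧ ‖ξ‖ < 2 ^ (k i + w) := by
  have hpi : (0:ℝ) < 2 * Real.pi := by positivity
  filter_upwards [ae_smul hf (inv_ne_zero hpi.ne')] with ξ hξ hne
  have h1 : ∃ i, F i ((2 * Real.pi)⁻¹ • ξ) ≠ 0 := by
    by_contra! h
    apply hne
    have h2 : HasSum (fun i => F i ((2 * Real.pi)⁻¹ • ξ)) 0 := by
      simp_rw [h]; exact hasSum_zero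
    exact hξ.unique h2
  obtain ⟨i, hi⟩ := h1
  have h2 : 2 * Real.pi * ‖(2 * Real.pi)⁻¹ • ξ‖ = ‖ξ‖ := by
    rw [norm_smul, Real.norm_of_nonneg (by positivity), ← mul_assoc,
      mul_inv_cancel₀ hpi.ne', one_mul]
  have h3 := hFs i _ hi
  rw [h2] at h3
  exact ⟨i, h3⟩

lemma tendsto_Γ (hn : 1 ≤ n) (D : ℝ) :
    Tendsto (fun k : ℕ => D * (2 : ℝ) ^ (-(2 * k * sCrit n))) atTop (𝓝 0) := by
  have hsc : 0 < sCrit n := by
    unfold sCrit
    have : (0 : ℝ) < n := by exact_mod_cast hn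
    positivity
  have h1 : Tendsto (fun k : ℕ => (2 : ℝ) ^ (-(2 * k * sCrit n))) atTop (𝓝 0) := by
    have h2 : ∀ k : ℕ, (2 : ℝ) ^ (-(2 * k * sCrit n)) = ((2 : ℝ) ^ (-(2 * sCrit n))) ^ k := by
      intro k
      rw [← Real.rpow_natCast, ← Real.rpow_mul (by norm_num)]
      congr 1; ring
    simp_rw [h2]
    exact tendsto_pow_atTop_nhds_zero_of_lt_one (by positivity)
      (Real.rpow_lt_one_of_one_lt_of_neg (by norm_num) (by linarith only [hsc]))
  have := h1.const_mul D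
  rwa [mul_zero] at this

theorem unified0 (hn : 1 ≤ n) (hcov : CoverProperty n) {C : ℝ} (hC : 0 < C)
    (hB : BlockProperty0 n C) : UnifiedConclusion0 n := by
  intro a ha hsum A hA
  obtain ⟨lam, r, hlam1, hlamT, hr0, hr1, hrs, hcost⟩ := choose_radii hn hC ha hsum
  obtain ⟨c, hc⟩ := hcov r hr0 hr1 hrs
  set Γ : ℕ → ℕ → ℝ := fun i k => lam i ^ 2 * (C * r i ^ ((n : ℝ) ^ 2 / (n + 1))) *
    (2 : ℝ) ^ (-(2 * k * sCrit n)) with hΓdef
  have hΓ : ∀ i, Tendsto (Γ i) atTop (𝓝 0) := fun i => tendsto_Γ hn _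
  obtain ⟨d, k, F, f, u, z, -, -, hk, hFs, hFc, hf, hu, hz, hzc, hz0, hdiv⟩ :=
    master0 (n := n) (α := Unit) 1 (fun _ _ _ => True) (fun i _ => cube (c i) (r i)) lam
      (fun i => 1 / (i + 1)) Γ A (fun i => one_pos.trans_le (hlam1 i)) (fun i => by (clear * -; positivity)) hΓ
      (by
        intro i _ B s₀ ε K hs₀ hε
        obtain ⟨k₀, hk₀⟩ := block_of_property0 hB (c i) (B := B) (hr0 i)
          (one_pos.trans_le (hlam1 i)) hs₀ hε
        obtain ⟨k, hkA, hk⟩ := hA.exists_gt (max k₀ K)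
        obtain ⟨F, s₁, hF⟩ := hk₀ k ((le_max_left _ _).trans hk.le)
        exact ⟨(), k, F, s₁, trivial, (le_max_right _ _).trans hk.le, hkA, hF⟩) () 0
  have hkmono : StrictMono k := strictMono_nat_of_lt_succ fun i => by
    have := (hk i).2.1
    omega
  refine ⟨k, hkmono, fun i => (hk i).2.2, f, u, z, supp_of_pieces hFs hf, fun i => ?_, hz, hzc,
    hz0, hu, ?_⟩
  · rw [shellNorm, setIntegral_hat_sq, shell_integral_eq hkmono hFs hf i]
    have h1 : ∫ η, ‖F i η‖ ^ 2 ≤ a i ^ 2 * (2 : ℝ) ^ (-(2 * k i * sCrit n)) := by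
      refine (hFc i).trans ?_
      simp only [hΓdef]
      gcongr
      exact hcost i
    have h2 : a i ^ 2 * (2 : ℝ) ^ (-(2 * k i * sCrit n))
        = (a i * (2 : ℝ) ^ (-(k i * sCrit n))) ^ 2 := by
      rw [mul_pow, ← Real.rpow_natCast ((2:ℝ) ^ _) 2, ← Real.rpow_mul (by norm_num)]
      congr 2
      push_cast
      ring
    have h3 : √(∫ η, ‖F i η‖ ^ 2) ≤ a i * (2 : ℝ) ^ (-(k i * sCrit n)) := by
      rw [Real.sqrt_le_left (by have := ha i; (clear * - this; positivity)), ← h2]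
      exact h1
    calc (2 : ℝ) ^ (k i * sCrit n) * √(∫ η, ‖F i η‖ ^ 2)
        ≤ (2 : ℝ) ^ (k i * sCrit n) * (a i * (2 : ℝ) ^ (-(k i * sCrit n))) := by (clear * - h3; gcongr)
      _ = a i := by
          rw [mul_comm (a i), ← mul_assoc, ← Real.rpow_add (by norm_num), add_neg_cancel,
            Real.rpow_zero, one_mul]
  · intro x M
    have hx1 := hc x
    have hx2 := hdiv x
    rw [frequently_iff]
    intro U hU
    obtain ⟨ε, hε, hεU⟩ := mem_nhdsGT_iff_exists_Ioo_subset.1 hU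
    have h1 : ∀ᶠ i : ℕ in atTop, (1:ℝ) / (i + 1) < ε :=
      tendsto_one_div_add_atTop_nhds_zero_nat.eventually (gt_mem_nhds hε)
    have h2 : ∀ᶠ i : ℕ in atTop, M + ‖z x‖ < lam i / 2 := by
      filter_upwards [hlamT.eventually (eventually_gt_atTop (2 * (M + ‖z x‖)))] with i hi
      linarith only [hi]
    obtain ⟨i, hi, ⟨h3, h4⟩, h5⟩ := (hx1.and_eventually ((h1.and h2).and hx2)).exists
    obtain ⟨t, ht0, ht1, ht2⟩ := h5 hi
    refine ⟨t, hεU ⟨ht0, ht1.trans_lt h3⟩, ?_⟩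
    have h6 := norm_sub_le (u t x) (z x)
    linarith only [h4, ht2, h6]

theorem besov0 (hn : 1 ≤ n) (hU : UnifiedConclusion0 n) :
    ∃ (f : Lp ℂ 2 (volume : Measure (E n))) (u : ℝ → E n → ℂ) (z : E n → ℂ),
      (∀ q : ℝ, 2 + 2 / (n : ℝ) < q →
        Summable fun j : ℕ => (2 ^ (j * sCrit n) * shellNorm f j) ^ q) ∧
      (∀ᵐ x, f x = z x) ∧ Continuous z ∧ Tendsto z (cocompact (E n)) (𝓝 0) ∧
      (∀ t > 0, ∀ x, Tendsto (fun b => schrReg f t b x) (𝓝[>] 0) (𝓝 (u t x))) ∧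
      ∀ x, ∀ M : ℝ, ∃ᶠ t in 𝓝[>] (0 : ℝ), M < ‖u t x‖ := by
  have hn0 : (0 : ℝ) < n := by exact_mod_cast hn
  set p : ℝ := 2 + 2 / (n : ℝ) with hp
  have hp0 : 0 < p := by positivity
  have hterm : ∀ (i : ℕ) (q : ℝ), (((i : ℝ) + 1) ^ (-(1 / p))) ^ q = 1 / ((i : ℝ) + 1) ^ (q / p) := by
    intro i q
    rw [← Real.rpow_mul (by positivity), one_div (((i : ℝ) + 1) ^ (q / p)), ← Real.rpow_neg (by positivity)]
    congr 1
    (clear * - hp0; field_simp)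
  have hnot : ¬ Summable fun i : ℕ => (((i : ℝ) + 1) ^ (-(1 / p))) ^ p := by
    simp_rw [hterm, div_self hp0.ne', Real.rpow_one]
    have := Real.not_summable_one_div_natCast
    rw [← summable_nat_add_iff 1] at this
    simpa only [one_div, Nat.cast_add, Nat.cast_one] using this
  obtain ⟨k, hk, -, f, u, z, hsupp, hle, hz, hzc, hz0, hval, hdiv⟩ := hU (fun i => ((i : ℝ) + 1) ^ (-(1 / p)))
    (fun i => by (clear * -; positivity)) hnot Set.univ Set.infinite_univ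
  refine ⟨f, u, z, fun q hq => ?_, hz, hzc, hz0, hval, hdiv⟩
  have hq0 : 0 < q := hp0.trans hq
  have hzero : ∀ j ∉ Set.range k, (2 ^ ((j : ℝ) * sCrit n) * shellNorm f j) ^ q = 0 := by
    intro j hj
    rw [shellNorm_eq_zero hsupp hj, mul_zero, Real.zero_rpow hq0.ne']
  rw [← hk.injective.summable_iff hzero]
  have hs : Summable fun i : ℕ => 1 / ((i : ℝ) + 1) ^ (q / p) := by
    have h1 : 1 < q / p := by rw [lt_div_iff₀ hp0]; linarith only [hq]
    have := (Real.summable_one_div_nat_rpow (p := q / p)).2 h1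
    rw [← summable_nat_add_iff 1] at this
    simpa only [one_div, Nat.cast_add, Nat.cast_one] using this
  refine Summable.of_nonneg_of_le (fun i => ?_) (fun i => ?_) hs
  · have := shellNorm_nonneg f (k i)
    simp only [Function.comp]
    (clear * - this; positivity)
  · simp only [Function.comp]
    rw [← hterm]
    have := shellNorm_nonneg f (k i)
    exact Real.rpow_le_rpow (by (clear * - this; positivity)) (hle i) hq0.le

theorem weights0 (hn : 1 ≤ n) (hU : UnifiedConclusion0 n) {w : ℝ → ℝ} (hw : Monotone w)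
    (hw0 : ∀ r, 0 ≤ w r) (hlim : ∀ ε > 0, ∃ᶠ r in atTop, w r ≤ ε * r ^ (2 * sCrit n)) :
    ∃ (f : Lp ℂ 2 (volume : Measure (E n))) (u : ℝ → E n → ℂ) (z : E n → ℂ),
      Integrable (fun ξ => w ‖ξ‖ * ‖hat f ξ‖ ^ 2) ∧
      (∀ᵐ x, f x = z x) ∧ Continuous z ∧ Tendsto z (cocompact (E n)) (𝓝 0) ∧
      (∀ t > 0, ∀ x, Tendsto (fun b => schrReg f t b x) (𝓝[>] 0) (𝓝 (u t x))) ∧
      ∀ x, ∀ M : ℝ, ∃ᶠ t in 𝓝[>] (0 : ℝ), M < ‖u t x‖ := by
  obtain ⟨φ, hφ, hφ2⟩ := extraction_forall_of_frequently (exists_dyadic hw hn hlim)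
  obtain ⟨k, hk, hkφ, f, u, z, hsupp, hle, hz, hzc, hz0, hval, hdiv⟩ := hU (fun _ => 1) (fun _ => one_pos)
    (by simp only [Real.one_rpow, summable_const_iff, one_ne_zero, not_false_eq_true]) (Set.range φ) (Set.infinite_range_of_injective hφ.injective)
  refine ⟨f, u, z, ?_, hz, hzc, hz0, hval, hdiv⟩
  choose j hj using hkφ
  have hjmono : StrictMono j := by
    intro i i' hii'
    have := hk hii'
    rw [← hj i, ← hj i'] at this
    exact hφ.lt_iff_lt.1 this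
  refine integrable_of_shells hw.measurable hw0 hsupp (W := fun i => w (2 ^ (k i + 1)))
    (fun i r _ hr => hw hr.le) ?_
  have hgeo : Summable fun i : ℕ => (2 * Real.pi) ^ n * (1 / 4 : ℝ) ^ i :=
    (summable_geometric_of_lt_one (by norm_num) (by norm_num)).mul_left _
  refine Summable.of_nonneg_of_le (fun i => mul_nonneg (hw0 _) (integral_nonneg fun _ => by
    (clear * -; positivity))) (fun i => ?_) hgeo
  calc w (2 ^ (k i + 1)) * ∫ ξ in {ξ : E n | 2 ^ k i ≤ ‖ξ‖ ∧ ‖ξ‖ < 2 ^ (k i + 1)}, ‖hat f ξ‖ ^ 2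
      ≤ ((1 / 4) ^ i * 2 ^ (2 * (k i) * sCrit n)) *
        ∫ ξ in {ξ : E n | 2 ^ k i ≤ ‖ξ‖ ∧ ‖ξ‖ < 2 ^ (k i + 1)}, ‖hat f ξ‖ ^ 2 := by
        have h1 := hφ2 (j i)
        rw [hj i] at h1
        have h2 : (1 / 4 : ℝ) ^ (j i) ≤ (1 / 4) ^ i :=
          pow_le_pow_of_le_one (by norm_num) (by norm_num) hjmono.le_apply
        have h3 : 0 ≤ ∫ ξ in {ξ : E n | 2 ^ k i ≤ ‖ξ‖ ∧ ‖ξ‖ < 2 ^ (k i + 1)}, ‖hat f ξ‖ ^ 2 :=
          integral_nonneg fun _ => by (clear * -; positivity)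
        gcongr
        exact h1.trans (by (clear * - h2; gcongr))
    _ = (2 * Real.pi) ^ n * (1 / 4 : ℝ) ^ i * (2 ^ (k i * sCrit n) * shellNorm f (k i)) ^ 2 := by
        have h4 : ((2 : ℝ) ^ ((k i : ℝ) * sCrit n)) ^ 2 = 2 ^ (2 * (k i : ℝ) * sCrit n) := by
          rw [← Real.rpow_natCast (2 ^ _) 2, ← Real.rpow_mul (by norm_num)]
          congr 1; push_cast; ring
        rw [mul_pow (2 ^ ((k i : ℝ) * sCrit n)), shellNorm_sq, h4]
        have key : ∀ a b c d : ℝ, a ≠ 0 → b * c * d = a * b * (c * (a⁻¹ * d)) := by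
          intro a b c d ha
          rw [show a * b * (c * (a⁻¹ * d)) = (a * a⁻¹) * (b * c * d) by ring,
            mul_inv_cancel₀ ha, one_mul]
        exact key _ _ _ _ (pow_pos (mul_pos two_pos Real.pi_pos) n).ne'
    _ ≤ (2 * Real.pi) ^ n * (1 / 4 : ℝ) ^ i * 1 ^ 2 := by
        have := shellNorm_nonneg f (k i)
        have := hle i
        (clear hn hU hw hw0 hlim φ hφ hφ2 hk u z hsupp hz hzc hz0 hval hdiv j hj hjmono hgeo; gcongr)
    _ = _ := by ring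

theorem noRate0 (hn : 1 ≤ n) {C : ℝ} (hC : 0 < C) (hB : BlockProperty0 n C) {ω : ℝ → ℝ}
    (hω : Tendsto ω (𝓝[>] 0) (𝓝 0)) :
    ∃ (f : Lp ℂ 2 (volume : Measure (E n))) (u : ℝ → E n → ℂ) (z : E n → ℂ),
      Integrable (fun ξ => (1 + ‖ξ‖ ^ 2) ^ sCrit n * ‖hat f ξ‖ ^ 2) ∧
      (∀ᵐ x, f x = z x) ∧ Continuous z ∧ Tendsto z (cocompact (E n)) (𝓝 0) ∧
      (∀ t > 0, ∀ x, Tendsto (fun b => schrReg f t b x) (𝓝[>] 0) (𝓝 (u t x))) ∧
      ∀ x, ∀ M : ℝ, ∃ᶠ t in 𝓝[>] (0 : ℝ), M * |ω t| < ‖u t x - z x‖ := by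
  set α : ℝ := (n : ℝ) ^ 2 / (n + 1) with hα
  set r : ℕ → ℝ := fun i => 2 * i + 1 with hr
  have hr0 : ∀ i, 0 < r i := fun i => by simp only [hr]; (clear * -; positivity)
  set c : ℕ → E n := fun i => WithLp.toLp 2 fun _ => -(i : ℝ) with hc
  set V : ℕ → ℝ := fun i => (1 / 2) ^ i / (1 + C * r i ^ α) with hV
  have hD : ∀ i, 0 < 1 + C * r i ^ α := fun i => by
    have := hr0 i
    (clear * - hC; positivity)
  have hV0 : ∀ i, 0 < V i := fun i => by
    have := hD i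
    simp only [hV]; (clear * - hC; positivity)
  have hcostV : ∀ i, V i ^ 2 * (C * r i ^ α) ≤ (1 / 4) ^ i := by
    intro i
    have h1 : 0 < C * r i ^ α := by have := hr0 i; (clear * - hC; positivity)
    simp only [hV]
    rw [div_pow, div_mul_eq_mul_div, div_le_iff₀ (by have := hD i; (clear * - hC; positivity))]
    have h3 : (((1:ℝ) / 2) ^ i) ^ 2 = (1 / 4) ^ i := by
      rw [← pow_mul, mul_comm, pow_mul]; norm_num
    rw [h3]
    have h4 : (0:ℝ) < (1 / 4) ^ i := by positivity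
    have h5 : C * r i ^ α ≤ (1 + C * r i ^ α) ^ 2 := by linarith only [h1, sq_nonneg (C * r i ^ α)]
    exact mul_le_mul_of_nonneg_left h5 h4.le
  -- thresholds
  have he : ∀ i : ℕ, ∃ e > 0, e ≤ 1 / ((i : ℝ) + 1) ∧ ∀ t, 0 < t → t ≤ e →
      ((i : ℝ) + 1) * |ω t| < V i / 2 := by
    intro i
    have h1 : Tendsto (fun t => ((i : ℝ) + 1) * |ω t|) (𝓝[>] 0) (𝓝 0) := by
      have := (hω.abs).const_mul ((i : ℝ) + 1)
      simpa only [abs_zero, mul_zero] using this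
    have h2 := h1.eventually (gt_mem_nhds (half_pos (hV0 i)))
    obtain ⟨ε, hε, hε2⟩ := mem_nhdsGT_iff_exists_Ioo_subset.1 h2
    have hε0 : (0:ℝ) < ε := hε
    refine ⟨min (ε / 2) (1 / ((i : ℝ) + 1)), by (clear * - hε0; positivity), min_le_right _ _, fun t ht0 ht1 => ?_⟩
    exact hε2 ⟨ht0, by have := ht1.trans (min_le_left _ _); linarith only [ht0, this]⟩
  choose e he0 he1 he2 using he
  set Γ : ℕ → ℕ → ℝ := fun i k => V i ^ 2 * (C * r i ^ α) *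
    (2 : ℝ) ^ (-(2 * k * sCrit n)) with hΓdef
  have hΓ : ∀ i, Tendsto (Γ i) atTop (𝓝 0) := fun i => tendsto_Γ hn _
  obtain ⟨d, k, F, f, u, z, -, -, hk, hFs, hFc, hf, hu, hz, hzc, hz0, hdiv⟩ :=
    master0 (n := n) (α := Unit) 1 (fun _ _ _ => True) (fun i _ => cube (c i) (r i)) V
      e Γ Set.univ hV0 he0 hΓ
      (by
        intro i _ B s₀ ε K hs₀ hε
        obtain ⟨k₀, hk₀⟩ := block_of_property0 hB (c i) (B := B) (hr0 i) (hV0 i) hs₀ hε
        obtain ⟨F, s₁, hF⟩ := hk₀ (max k₀ K) (le_max_left _ _)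
        exact ⟨(), max k₀ K, F, s₁, trivial, le_max_right _ _, Set.mem_univ _, hF⟩) () 0
  have hkmono : StrictMono k := strictMono_nat_of_lt_succ fun i => by
    have := (hk i).2.1
    omega
  have hsupp : ∀ᵐ ξ, hat f ξ ≠ 0 → ∃ i, 2 ^ k i ≤ ‖ξ‖ ∧ ‖ξ‖ < 2 ^ (k i + 1) :=
    supp_of_pieces hFs hf
  refine ⟨f, u, z, ?_, hz, hzc, hz0, hu, ?_⟩
  · refine integrable_of_shells (w := fun r => (1 + r ^ 2) ^ sCrit n) ?_ (fun r => by (clear * -; positivity)) hsupp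
      (W := fun i => 8 * (2 : ℝ) ^ (2 * k i * sCrit n)) (fun i r h0 h1 => sobolev_weight_le hn h0 h1) ?_
    · exact (measurable_const.add (measurable_id.pow_const 2)).pow_const _
    · have hgeo : Summable fun i : ℕ => 8 * (2 * Real.pi) ^ n * (1 / 4 : ℝ) ^ i :=
        (summable_geometric_of_lt_one (by norm_num) (by norm_num)).mul_left _
      refine Summable.of_nonneg_of_le (fun i => ?_) (fun i => ?_) hgeo
      · have : 0 ≤ ∫ ξ in {ξ : E n | 2 ^ k i ≤ ‖ξ‖ ∧ ‖ξ‖ < 2 ^ (k i + 1)}, ‖hat f ξ‖ ^ 2 :=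
          integral_nonneg fun _ => by (clear * -; positivity)
        (clear * -; positivity)
      · have h1 := setIntegral_hat_sq f (k i)
        rw [shell_integral_eq hkmono hFs hf i] at h1
        have h2 : ∫ ξ in {ξ : E n | 2 ^ k i ≤ ‖ξ‖ ∧ ‖ξ‖ < 2 ^ (k i + 1)}, ‖hat f ξ‖ ^ 2
            = (2 * Real.pi) ^ n * ∫ η, ‖F i η‖ ^ 2 := by
          rw [← h1, ← mul_assoc, mul_inv_cancel₀ (by positivity), one_mul]
        rw [h2]
        have h3 := hFc i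
        simp only [hΓdef] at h3
        calc 8 * (2 : ℝ) ^ (2 * k i * sCrit n) * ((2 * Real.pi) ^ n * ∫ η, ‖F i η‖ ^ 2)
            ≤ 8 * (2 : ℝ) ^ (2 * k i * sCrit n) * ((2 * Real.pi) ^ n *
              (V i ^ 2 * (C * r i ^ α) * (2 : ℝ) ^ (-(2 * k i * sCrit n)))) := by (clear * - h3; gcongr)
          _ ≤ 8 * (2 : ℝ) ^ (2 * k i * sCrit n) * ((2 * Real.pi) ^ n *
              ((1 / 4) ^ i * (2 : ℝ) ^ (-(2 * k i * sCrit n)))) := by
              have := hcostV i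
              (clear * - this; gcongr)
          _ = 8 * (2 * Real.pi) ^ n * (1 / 4 : ℝ) ^ i := by
              rw [Real.rpow_neg (by norm_num)]
              have : (0:ℝ) < 2 ^ (2 * (k i : ℝ) * sCrit n) := by positivity
              field_simp
  · intro x M
    have hx2 := hdiv x
    rw [frequently_iff]
    intro U hU
    obtain ⟨ε, hε, hεU⟩ := mem_nhdsGT_iff_exists_Ioo_subset.1 hU
    have h1 : ∀ᶠ i : ℕ in atTop, (1:ℝ) / (i + 1) < ε :=
      tendsto_one_div_add_atTop_nhds_zero_nat.eventually (gt_mem_nhds hε)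
    have h2 : ∀ᶠ i : ℕ in atTop, M ≤ i := by
      obtain ⟨m, hm⟩ := exists_nat_ge M
      filter_upwards [eventually_ge_atTop m] with i hi
      exact hm.trans (by exact_mod_cast hi)
    have h3 : ∀ᶠ i : ℕ in atTop, x ∈ cube (c i) (r i) := by
      obtain ⟨m, hm⟩ := exists_nat_ge ‖x‖
      filter_upwards [eventually_ge_atTop m] with i hi j
      have h4 : |x j| ≤ ‖x‖ := by
        have := PiLp.norm_apply_le x j
        rwa [Real.norm_eq_abs] at this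
      have h5 : (m : ℝ) ≤ i := by exact_mod_cast hi
      have h6 := abs_le.1 h4
      simp only [hc, hr]
      constructor <;> linarith only [hm, h5, h6]
    obtain ⟨i, h4, h5, h6, h7⟩ := (h1.and (h2.and (h3.and hx2))).exists
    obtain ⟨t, ht0, ht1, ht2⟩ := h7 h6
    refine ⟨t, hεU ⟨ht0, (ht1.trans (he1 i)).trans_lt h4⟩, ?_⟩
    have h8 := he2 i t ht0 ht1
    have h9 : M * |ω t| ≤ ((i : ℝ) + 1) * |ω t| :=
      mul_le_mul_of_nonneg_right (by linarith only [h5]) (abs_nonneg _)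
    linarith only [ht2, h8, h9]

end Vale.Agent.P076
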